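import Vale.Agent.P331.Gain

/-!
One seeded rule that is competitive for every common law.
-/

open MeasureTheory Set
open scoped NNReal ENNReal

namespace Vale.Agent.P331

variable {α : Type*} [Fintype α]

/-- The seed: tags of samples, tags of values, and a coin. -/
abbrev Seed (α : Type*) := ((α → ℝ) × (α → ℝ)) × Bool

/-- The fair coin. -/
noncomputable def fair : Measure Bool :=
  (2 : ℝ≥0∞)⁻¹ • Measure.dirac true + (2 : ℝ≥0∞)⁻¹ • Measure.dirac false

instance : IsProbabilityMeasure fair := ⟨by simp [fair, ENNReal.inv_two_add_inv_two]⟩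

/-- The law of the seed. -/
noncomputable def seedLaw (α : Type*) [Fintype α] : Measure (Seed α) :=
  ((Measure.pi fun _ : α => unif).prod (Measure.pi fun _ : α => unif)).prod fair

instance : IsProbabilityMeasure (seedLaw α) := by unfold seedLaw; infer_instance

/-- The rule. -/
def rule (M : Matroid α) (lev : α → ℕ) (S : α → ℝ≥0) (r : Seed α) (A : Finset α) (e : α)
    (v : ℝ≥0) : Prop :=
  Accept M lev (fun i => (S i, r.1.1 i)) r.2 A e (v, r.1.2 e)

variable {M : Matroid α} {lev : α → ℕ}

lemma run_eq (S : α → ℝ≥0) (r : Seed α) (V : α → ℝ≥0) (l : List α) :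
    run (rule M lev) S r V l =
      l.foldl (step M lev (fun i => (S i, r.1.1 i)) (fun i => (V i, r.1.2 i)) r.2) ∅ := by
  unfold run
  congr 1

lemma measurable_beatCount :
    Measurable fun p : (α → Draw) × Draw => beatCount M p.1 p.2 := by
  classical
  have : (fun p : (α → Draw) × Draw => beatCount M p.1 p.2) =
      fun p => ∑ i ∈ live M, if Beats (p.1 i) p.2 then 1 else 0 := by
    funext p
    simp only [beatCount, Finset.card_filter]
  rw [this]
  refine Finset.measurable_sum _ fun i _ => Measurable.ite ?_ measurable_const measurable_const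
  unfold Beats
  simp only [Set.ofPred_or, Set.ofPred_and]
  have hi : Measurable fun p : (α → Draw) × Draw => p.1 i :=
    (measurable_pi_apply i).comp measurable_fst
  exact (measurableSet_lt (measurable_fst.comp measurable_snd) (measurable_fst.comp hi)).union
    ((measurableSet_eq_fun (measurable_fst.comp measurable_snd) (measurable_fst.comp hi)).inter
      (measurableSet_lt (measurable_snd.comp measurable_snd) (measurable_snd.comp hi)))

lemma measurableSet_rule (A : Finset α) (e : α) :
    MeasurableSet {p : ((α → ℝ≥0) × Seed α) × ℝ≥0 | rule M lev p.1.1 p.1.2 A e p.2} := by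
  have hb : Measurable fun p : ((α → ℝ≥0) × Seed α) × ℝ≥0 =>
      beatCount M (fun i => (p.1.1 i, p.1.2.1.1 i)) (p.2, p.1.2.1.2 e) :=
    measurable_beatCount.comp (f := fun p : ((α → ℝ≥0) × Seed α) × ℝ≥0 =>
      ((fun i => (p.1.1 i, p.1.2.1.1 i) : α → Draw), ((p.2, p.1.2.1.2 e) : Draw))) (by fun_prop)
  have hset : {p : ((α → ℝ≥0) × Seed α) × ℝ≥0 | rule M lev p.1.1 p.1.2 A e p.2} =
      (fun p : ((α → ℝ≥0) × Seed α) × ℝ≥0 =>
        (p.1.2.2, beatCount M (fun i => (p.1.1 i, p.1.2.1.1 i)) (p.2, p.1.2.1.2 e))) ⁻¹'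
      {q : Bool × ℕ | if q.1 then (M.IsNonloop e ∧ 64 ≤ level M e ∧ q.2 < cut M e) ∧
          e ∉ M.closure (guardSet lev A e) else M.IsNonloop e ∧ q.2 = 0 ∧ A = ∅} := by
    ext p
    rfl
  rw [hset]
  exact ((measurable_snd.comp (measurable_snd.comp measurable_fst)).prodMk hb) (Set.to_countable _).measurableSet

lemma run_indep (hE : M.E = univ) (S : α → ℝ≥0) (r : Seed α) (V : α → ℝ≥0) (l : List α) :
    M.Indep (run (rule M lev) S r V l : Set α) := by
  rw [run_eq]
  exact foldl_indep hE l

variable (D : Measure ℝ≥0) [IsProbabilityMeasure D]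

/-- Rearranging the coordinates into two families of draws and a coin. -/
lemma pairing_preserving :
    MeasurePreserving (fun p : ((α → ℝ≥0) × Seed α) × (α → ℝ≥0) =>
        (((fun i => (p.1.1 i, p.1.2.1.1 i)) : α → Draw),
          ((fun i => (p.2 i, p.1.2.1.2 i)) : α → Draw), p.1.2.2))
      (((Measure.pi fun _ : α => D).prod (seedLaw α)).prod (Measure.pi fun _ : α => D))
      ((draws α D).prod ((draws α D).prod fair)) := by
  set P := Measure.pi fun _ : α => D
  set U := Measure.pi fun _ : α => unif
  have hz : MeasurePreserving (fun q : (α → ℝ≥0) × (α → ℝ) => ((fun i => (q.1 i, q.2 i)) : α → Draw))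
      (P.prod U) (draws α D) :=
    (measurePreserving_arrowProdEquivProdArrow ℝ≥0 ℝ α (fun _ => D) fun _ => unif).symm
  -- ((S,((t,u),c)),V) to ((S,t),((u,V),c))
  have s1 : MeasurePreserving (fun p : ((α → ℝ≥0) × Seed α) × (α → ℝ≥0) =>
      ((((p.1.1, p.1.2.1.1), p.1.2.1.2), p.1.2.2), p.2))
      ((P.prod (seedLaw α)).prod P) ((((P.prod U).prod U).prod fair).prod P) := by
    have a := (measurePreserving_prodAssoc P (U.prod U) fair).symm
    have b := ((measurePreserving_prodAssoc P U U).symm).prod (MeasurePreserving.id fair)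
    exact (b.comp a).prod (MeasurePreserving.id P)
  have s2 : MeasurePreserving (fun p : ((((α → ℝ≥0) × (α → ℝ)) × (α → ℝ)) × Bool) × (α → ℝ≥0) =>
      ((p.1.1.1, (p.2, p.1.1.2)), p.1.2))
      ((((P.prod U).prod U).prod fair).prod P) (((P.prod U).prod (P.prod U)).prod fair) := by
    have a := measurePreserving_prodAssoc ((P.prod U).prod U) fair P
    have b := (MeasurePreserving.id ((P.prod U).prod U)).prod
      (Measure.measurePreserving_swap (μ := fair) (ν := P))
    have c := (measurePreserving_prodAssoc ((P.prod U).prod U) P fair).symm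
    have d := (((MeasurePreserving.id (P.prod U)).prod
      (Measure.measurePreserving_swap (μ := U) (ν := P))).comp
        (measurePreserving_prodAssoc (P.prod U) U P)).prod (MeasurePreserving.id fair)
    exact d.comp (c.comp (b.comp a))
  have s3 : MeasurePreserving (fun p : (((α → ℝ≥0) × (α → ℝ)) × ((α → ℝ≥0) × (α → ℝ))) × Bool =>
      (((fun i => (p.1.1.1 i, p.1.1.2 i)) : α → Draw),
        ((fun i => (p.1.2.1 i, p.1.2.2 i)) : α → Draw), p.2))
      (((P.prod U).prod (P.prod U)).prod fair) ((draws α D).prod ((draws α D).prod fair)) :=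
    (measurePreserving_prodAssoc _ _ _).comp ((hz.prod hz).prod (MeasurePreserving.id fair))
  exact (s3.comp (s2.comp s1))

lemma value_preserving :
    MeasurePreserving (fun Z : α → Draw => fun i => (Z i).1) (draws α D)
      (Measure.pi fun _ : α => D) := by
  exact measurePreserving_pi _ _ fun _ => measurePreserving_fst

variable (M lev) in
/-- A measurable lower bound for the collected value. -/
noncomputable def sure (p : (α → Draw) × (α → Draw) × Bool) : ℝ≥0∞ :=
  if p.2.2 then
    ∑ e, (chainEv D M lev e).indicator (fun q => ((q.2 e).1 : ℝ≥0∞)) (p.1, p.2.1)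
  else ∑ e, (singleEv D M e).indicator (fun q => ((q.2 e).1 : ℝ≥0∞)) (p.1, p.2.1)

lemma sure_le_worst (S : α → ℝ≥0) (r : Seed α) (V : α → ℝ≥0) :
    sure M lev D ((fun i => (S i, r.1.1 i)), (fun i => (V i, r.1.2 i)), r.2) ≤
      worst (rule M lev) S r V := by
  classical
  refine le_iInf fun π => ?_
  rw [run_eq]
  set S' : α → Draw := fun i => (S i, r.1.1 i)
  set V' : α → Draw := fun i => (V i, r.1.2 i)
  set T := (List.ofFn π).foldl (step M lev S' V' r.2) ∅ with hT
  have hl : ∀ e, e ∈ List.ofFn π := fun e => List.mem_ofFn.2 ⟨π.symm e, by simp⟩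
  have key : ∀ (ev : α → Set ((α → Draw) × (α → Draw))), (∀ e, (S', V') ∈ ev e → e ∈ T) →
      ∑ e, (ev e).indicator (fun q => ((q.2 e).1 : ℝ≥0∞)) (S', V') ≤
        ∑ e ∈ T, (V e : ℝ≥0∞) := by
    intro ev hev
    calc _ ≤ ∑ e, if e ∈ T then (V e : ℝ≥0∞) else 0 := by
          refine Finset.sum_le_sum fun e _ => ?_
          by_cases h : (S', V') ∈ ev e
          · rw [Set.indicator_of_mem h, if_pos (hev e h)]
          · rw [Set.indicator_of_notMem h]
            exact zero_le
      _ = _ := by rw [Finset.sum_ite_mem, Finset.univ_inter]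
  unfold sure
  cases hc : r.2
  · simp only [Bool.false_eq_true, if_false]
    exact key _ fun e he => by rw [hT, hc]; exact single_event he _ (hl e)
  · simp only [if_true]
    exact key _ fun e he => by rw [hT, hc]; exact chain_event he _ (hl e)

lemma measurable_sure : Measurable (sure M lev D) := by
  have hq : Measurable fun p : (α → Draw) × (α → Draw) × Bool => (p.1, p.2.1) := by fun_prop
  have hv : ∀ e, Measurable fun q : (α → Draw) × (α → Draw) => ((q.2 e).1 : ℝ≥0∞) := fun e =>
    (measurable_value e).comp measurable_snd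
  refine Measurable.ite ?_ ?_ ?_
  · exact (measurable_snd.comp measurable_snd) (measurableSet_singleton true)
  · exact Finset.measurable_sum _ fun e _ =>
      ((hv e).indicator (measurableSet_chainEv lev e)).comp hq
  · exact Finset.measurable_sum _ fun e _ =>
      ((hv e).indicator (measurableSet_singleEv e)).comp hq

/-- The competitive guarantee. -/
lemma competitive (hE : M.E = univ)
    (hlev : ∀ e, M.IsNonloop e → 1 / 2 ≤ (cube α).real {u | Free M lev (maybe M u) e}) :
    ENNReal.ofReal (1 / 100000) * ∫⁻ V, opt M V ∂(Measure.pi fun _ : α => D) ≤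
      ∫⁻ p, worst (rule M lev) p.1.1 p.1.2 p.2
        ∂(((Measure.pi fun _ : α => D).prod (seedLaw α)).prod (Measure.pi fun _ : α => D)) := by
  set W := draws α D
  set C := ∑ e, ∫⁻ p in chainEv D M lev e, ((p.2 e).1 : ℝ≥0∞) ∂W.prod W with hC
  set Sg := ∑ e, ∫⁻ p in singleEv D M e, ((p.2 e).1 : ℝ≥0∞) ∂W.prod W with hSg
  have hopt : ∫⁻ V, opt M V ∂(Measure.pi fun _ : α => D) ≤ 50000 * (C + Sg) := by
    have hm : Measurable (opt M) := Measurable.iSup fun I => Measurable.iSup fun _ =>
      Finset.measurable_sum _ fun e _ => (measurable_pi_apply e).coe_nnreal_ennreal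
    rw [← (value_preserving D).map_eq, lintegral_map hm (value_preserving D).measurable]
    refine (lintegral_opt_le D M hE).trans ?_
    rw [hC, hSg, ← Finset.sum_add_distrib, Finset.mul_sum]
    exact Finset.sum_le_sum fun e _ => element_bound lev hE hlev e
  have hgain : (2 : ℝ≥0∞)⁻¹ * (C + Sg) ≤ ∫⁻ p, worst (rule M lev) p.1.1 p.1.2 p.2
      ∂(((Measure.pi fun _ : α => D).prod (seedLaw α)).prod (Measure.pi fun _ : α => D)) := by
    refine le_trans (le_of_eq ?_) (lintegral_mono fun p => sure_le_worst D p.1.1 p.1.2 p.2)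
    rw [← lintegral_map (measurable_sure D) (pairing_preserving D).measurable,
      (pairing_preserving D).map_eq]
    have hassoc := measurePreserving_prodAssoc W W fair
    rw [← hassoc.map_eq, lintegral_map (measurable_sure D) hassoc.measurable,
      lintegral_prod_symm (fun a => sure M lev D (MeasurableEquiv.prodAssoc a))
        ((measurable_sure D).comp hassoc.measurable).aemeasurable]
    rw [fair, lintegral_add_measure, lintegral_smul_measure, lintegral_smul_measure,
      lintegral_dirac, lintegral_dirac, mul_add]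
    have hv : ∀ e, Measurable fun q : (α → Draw) × (α → Draw) => ((q.2 e).1 : ℝ≥0∞) := fun e =>
      (measurable_value e).comp measurable_snd
    simp only [sure, MeasurableEquiv.prodAssoc, MeasurableEquiv.coe_mk, Equiv.prodAssoc_apply,
      if_true, Bool.false_eq_true, if_false, smul_eq_mul]
    rw [lintegral_finsetSum _ fun e _ => (hv e).indicator (measurableSet_chainEv lev e),
      lintegral_finsetSum _ fun e _ => (hv e).indicator (measurableSet_singleEv e)]
    simp only [lintegral_indicator (measurableSet_chainEv lev _),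
      lintegral_indicator (measurableSet_singleEv _), hC, hSg, W]
  refine le_trans ?_ hgain
  refine (mul_le_mul' le_rfl hopt).trans (le_of_eq ?_)
  rw [← mul_assoc]
  congr 1
  rw [show (50000 : ℝ≥0∞) = ENNReal.ofReal 50000 by norm_num, ← ENNReal.ofReal_mul (by norm_num),
    show (2 : ℝ≥0∞)⁻¹ = ENNReal.ofReal (1 / 2) by
      rw [one_div, ENNReal.ofReal_inv_of_pos two_pos, ENNReal.ofReal_ofNat]]
  norm_num

end Vale.Agent.P331
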