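import Vale.Agent.P331.Rule

/-!
Expected values of the optimum and of the two rules.
-/

open MeasureTheory Set
open scoped NNReal ENNReal

namespace Vale.Agent.P331

variable {α : Type*} [Fintype α] (D : Measure ℝ≥0) [IsProbabilityMeasure D]

/-- The law of one draw for every element. -/
noncomputable def draws (α : Type*) [Fintype α] (D : Measure ℝ≥0) : Measure (α → Draw) :=
  Measure.pi fun _ => drawLaw D

instance : IsProbabilityMeasure (draws α D) := by unfold draws; infer_instance

/-- The ranks of draws. -/
noncomputable def ranks (S : α → Draw) : α → ℝ := fun i => quant D (S i)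

lemma ranks_preserving : MeasurePreserving (ranks D) (draws α D) (cube α) := by
  refine ⟨measurable_pi_lambda _ fun i => (measurable_quant D).comp (measurable_pi_apply i), ?_⟩
  unfold ranks draws cube
  rw [Measure.pi_map_pi fun _ => (measurable_quant D).aemeasurable]
  simp [quant_map]

variable (M : Matroid α)

lemma topMean_zero : topMean D 0 = 0 :=
  setLIntegral_measure_zero _ _ (by rw [measure_quant_le D le_rfl zero_le_one, ENNReal.ofReal_zero])

open Classical in
/-- The optimum is at most the greedy marginals times the top means. -/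
lemma lintegral_opt_le (hE : M.E = univ) :
    ∫⁻ V, opt M (fun e => (V e).1) ∂draws α D ≤ ∑ e, topMean D (marg M e) := by
  have hA : ∀ e, MeasurableSet {V : α → Draw | e ∈ greedy M (ranks D V)} := fun e =>
    (ranks_preserving D).measurable (measurableSet_greedy e)
  calc ∫⁻ V, opt M (fun e => (V e).1) ∂draws α D
      ≤ ∫⁻ V, ∑ e, {V : α → Draw | e ∈ greedy M (ranks D V)}.indicator
          (fun V => ((V e).1 : ℝ≥0∞)) V ∂draws α D := by
        refine lintegral_mono_ae ?_
        filter_upwards [(ranks_preserving D).quasiMeasurePreserving.ae cube_injective] with V hV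
        refine iSup₂_le fun I hI => ?_
        have h := sum_le_greedy hE hV (v := fun e => ((V e).1 : ℝ))
          (fun e f h => NNReal.coe_le_coe.2 (value_le_of_quant_lt D h)) (fun e => (V e).1.2) hI
        have h' : ∑ e ∈ I, (V e).1 ≤ ∑ e, if e ∈ greedy M (ranks D V) then (V e).1 else 0 := by
          rw [← NNReal.coe_le_coe]
          push_cast [apply_ite]
          exact h
        refine le_trans (le_of_eq (ENNReal.ofNNReal_finsetSum I fun e => (V e).1).symm)
          ((ENNReal.coe_le_coe.2 h').trans (le_of_eq ?_))
        rw [ENNReal.ofNNReal_finsetSum]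
        refine Finset.sum_congr rfl fun e _ => ?_
        simp only [Set.indicator_apply, mem_ofPred_eq]
        split_ifs <;> rfl
    _ = ∑ e, ∫⁻ V in {V : α → Draw | e ∈ greedy M (ranks D V)}, ((V e).1 : ℝ≥0∞) ∂draws α D := by
        have hm : ∀ e : α, Measurable ({V : α → Draw | e ∈ greedy M (ranks D V)}.indicator
            fun V => ((V e).1 : ℝ≥0∞)) := fun e =>
          ((measurable_fst.comp (measurable_pi_apply e)).coe_nnreal_ennreal).indicator (hA e)
        rw [lintegral_finsetSum _ fun e _ => hm e]
        exact Finset.sum_congr rfl fun e _ => lintegral_indicator (hA e) _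
    _ ≤ _ := Finset.sum_le_sum fun e _ => lintegral_event_le D
        (measurePreserving_eval (fun _ : α => drawLaw D) e) (hA e) (marg_le_one e)
        (((ranks_preserving D).measure_preimage (measurableSet_greedy e).nullMeasurableSet).trans
          (ofReal_measureReal (measure_ne_top _ _)).symm)

lemma measurableSet_maybe (R : Set α) : MeasurableSet {u : α → ℝ | maybe M u = R} := by
  have : {u : α → ℝ | maybe M u = R} = ⋂ f, {u | f ∈ maybe M u ↔ f ∈ R} := by
    ext u
    simp [Set.ext_iff]
  rw [this]
  refine MeasurableSet.iInter fun f => ?_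
  by_cases hf : f ∈ R
  · simpa [hf, maybe] using measurableSet_le (measurable_pi_apply f) measurable_const
  · simpa [hf, maybe] using measurableSet_lt measurable_const (measurable_pi_apply f)

open Classical in
lemma sum_maybe (P : Set α → Prop) :
    (∑ R, if P R then (cube α).real {u | maybe M u = R} else 0) =
      (cube α).real {u | P (maybe M u)} := by
  rw [← Finset.sum_filter, ← measureReal_biUnion_finset ?_ fun R _ => measurableSet_maybe M R]
  · congr 1
    ext u
    simp
  · intro R _ R' _ hne
    exact Set.disjoint_left.2 fun u h h' => hne (h.symm.trans h')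

lemma measurableSet_event (P : Set α → Prop) : MeasurableSet {u : α → ℝ | P (maybe M u)} := by
  have : {u : α → ℝ | P (maybe M u)} = ⋃ R ∈ {R | P R}, {u | maybe M u = R} := by
    ext u
    simp
  rw [this]
  exact MeasurableSet.biUnion (Set.to_countable _) fun R _ => measurableSet_maybe M R

open Classical in
/-- A level function making every nonloop free at least half of the time. -/
lemma exists_free (hE : M.E = univ) : ∃ lev : α → ℕ, ∀ e, M.IsNonloop e →
    1 / 2 ≤ (cube α).real {u | Free M lev (maybe M u) e} := by
  have hw1 : ∑ R, (cube α).real {u | maybe M u = R} = 1 := by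
    simpa using sum_maybe M fun _ => True
  have hR : ∀ N : Set α, ∑ R, (cube α).real {u | maybe M u = R} * (rk M (id R ∩ N) : ℝ) ≤
      (rk M N : ℝ) / 4 := by
    intro N
    calc ∑ R, (cube α).real {u | maybe M u = R} * (rk M (id R ∩ N) : ℝ)
        ≤ ∑ R, (cube α).real {u | maybe M u = R} * ∑ f ∈ N.toFinset, if f ∈ R then 1 else 0 := by
          refine Finset.sum_le_sum fun R _ => mul_le_mul_of_nonneg_left ?_ measureReal_nonneg
          refine (Nat.cast_le.2 (rk_le_card (M := M) _)).trans (le_of_eq ?_)
          rw [Finset.sum_boole, ← Set.ncard_coe_finset]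
          congr 2
          ext f
          simp [and_comm]
      _ = ∑ f ∈ N.toFinset, (cube α).real {u | f ∈ maybe M u} := by
          simp only [Finset.mul_sum, mul_ite, mul_one, mul_zero]
          rw [Finset.sum_comm]
          exact Finset.sum_congr rfl fun f _ => sum_maybe M fun R => f ∈ R
      _ = ∑ f ∈ N.toFinset, marg M f / 4 := by
          refine Finset.sum_congr rfl fun f _ => ?_
          rw [measureReal_def, show {u : α → ℝ | f ∈ maybe M u} = {u | u f ∈ Iic (marg M f / 4)}
            from rfl, cube_coord f measurableSet_Iic,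
            unif_Iic (by linarith [marg_le_one (M := M) f]),
            ENNReal.toReal_ofReal (by linarith [marg_nonneg (M := M) f])]
      _ ≤ _ := by
          rw [← Finset.sum_div]
          have := sum_marg_le hE N.toFinset
          rw [Set.coe_toFinset] at this
          linarith
  obtain ⟨lev, h⟩ := exists_levels hE (fun R => (cube α).real {u | maybe M u = R})
    (fun _ => measureReal_nonneg) hw1 id hR
  refine ⟨lev, fun e he => ?_⟩
  have h1 := h e he
  rw [sum_maybe M fun R => e ∈ M.closure (((id R ∩ {f | lev e ≤ lev f}) \ {e}) ∪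
    {f | lev e < lev f})] at h1
  have hm := measurableSet_event M fun R => e ∈ M.closure (((id R ∩ {f | lev e ≤ lev f}) \ {e}) ∪
    {f | lev e < lev f})
  have h2 := probReal_compl_eq_one_sub (μ := cube α) hm
  calc (1 / 2 : ℝ) ≤ 1 - _ := by linarith
    _ = _ := h2.symm

/-- The samples estimate all dyadic quantiles. -/
def Good (u : α → ℝ) : Prop :=
  ∀ j : ℕ, 64 ≤ 2 ^ j → 8 * 2 ^ j ≤ (live M).card →
    (2 : ℝ) ^ j ≤ cnt (live M) (2 * 2 ^ j / (live M).card) u ∧
      cnt (live M) (2 ^ j / (2 * (live M).card)) u < 2 ^ j

omit [Fintype α] in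
lemma measurable_cnt (N : Finset α) (s : ℝ) : Measurable (cnt N s) :=
  Finset.measurable_sum _ fun i _ =>
    ((measurable_const (a := (1 : ℝ))).indicator measurableSet_Iic).comp (measurable_pi_apply i)

lemma measurableSet_good : MeasurableSet {u : α → ℝ | Good M u} := by
  simp only [Good, Set.ofPred_forall, Set.ofPred_and]
  refine MeasurableSet.iInter fun j => MeasurableSet.iInter fun _ => MeasurableSet.iInter fun _ => ?_
  exact (measurableSet_le measurable_const (measurable_cnt _ _)).inter
    (measurableSet_lt (measurable_cnt _ _) measurable_const)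

lemma good_prob : 7 / 8 ≤ (cube α).real {u | Good M u} := by
  set N := live M
  set n : ℝ := (N.card : ℝ) with hn
  let J := (Finset.range (N.card + 1)).filter fun j => 64 ≤ 2 ^ j ∧ 8 * 2 ^ j ≤ N.card
  let bad : ℕ → Set (α → ℝ) := fun j =>
    {u | (2 : ℝ) ^ j ≤ |cnt N (2 * 2 ^ j / n) u - n * (2 * 2 ^ j / n)|} ∪
      {u | (2 : ℝ) ^ j / 2 ≤ |cnt N (2 ^ j / (2 * n)) u - n * (2 ^ j / (2 * n))|}
  have hsub : {u | Good M u}ᶜ ⊆ ⋃ j ∈ J, bad j := by
    intro u hu
    simp only [mem_compl_iff, mem_ofPred_eq, Good, not_forall] at hu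
    obtain ⟨j, h1, h2, h3⟩ := hu
    have hjn : j < N.card + 1 := by
      have := j.lt_two_pow_self
      change 8 * 2 ^ j ≤ N.card at h2
      omega
    refine Set.mem_biUnion (Finset.mem_filter.2 ⟨Finset.mem_range.2 hjn, h1, h2⟩) ?_
    have hn0 : 0 < n := by
      rw [hn]
      exact_mod_cast (Nat.lt_of_lt_of_le (by positivity : 0 < 8 * 2 ^ j) h2)
    have e1 : n * (2 * 2 ^ j / n) = 2 * 2 ^ j := by field_simp
    have e2 : n * (2 ^ j / (2 * n)) = 2 ^ j / 2 := by field_simp
    rw [not_and_or, not_le, not_lt] at h3
    rcases h3 with h3 | h3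
    · refine Or.inl ?_
      simp only [mem_ofPred_eq, e1]
      refine le_trans ?_ (neg_le_abs _)
      linarith
    · refine Or.inr ?_
      simp only [mem_ofPred_eq, e2]
      refine le_trans ?_ (le_abs_self _)
      linarith
  have hj : ∀ j ∈ J, (cube α).real (bad j) ≤ 4 * (1 / 2 : ℝ) ^ j := by
    intro j hj
    obtain ⟨-, h1, h2⟩ := Finset.mem_filter.1 hj
    have hk : (8 : ℝ) * 2 ^ j ≤ n := by rw [hn]; exact_mod_cast h2
    have hp : (0 : ℝ) < 2 ^ j := by positivity
    have hn0 : 0 < n := by linarith
    refine (measureReal_union_le _ _).trans ?_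
    have b1 := count_deviation N (s := 2 * 2 ^ j / n) (by positivity)
      ((div_le_one hn0).2 (by linarith)) hp
    have b2 := count_deviation N (s := 2 ^ j / (2 * n)) (by positivity)
      ((div_le_one (by linarith)).2 (by linarith)) (a := 2 ^ j / 2) (by positivity)
    have c1 := ENNReal.toReal_le_of_le_ofReal (by positivity) b1
    have c2 := ENNReal.toReal_le_of_le_ofReal (by positivity) b2
    refine (add_le_add c1 c2).trans (le_of_eq ?_)
    rw [one_div_pow, ← hn]
    field_simp
    ring
  have hsum : ∑ j ∈ J, 4 * (1 / 2 : ℝ) ^ j ≤ 1 / 8 := by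
    have hJ : J ⊆ (Finset.range (N.card + 1)).map ⟨fun i => i + 6, add_left_injective 6⟩ := by
      intro j hj
      obtain ⟨hjn, h1, -⟩ := Finset.mem_filter.1 hj
      rw [Finset.mem_range] at hjn
      have h6 : 6 ≤ j := by
        by_contra h
        have := Nat.pow_le_pow_right (show 0 < 2 by norm_num) (show j ≤ 5 by omega)
        norm_num at this
        omega
      exact Finset.mem_map.2 ⟨j - 6, Finset.mem_range.2 (by omega), Nat.sub_add_cancel h6⟩
    refine (Finset.sum_le_sum_of_subset_of_nonneg hJ fun _ _ _ => by positivity).trans ?_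
    rw [Finset.sum_map]
    simp only [Function.Embedding.coeFn_mk, pow_add, ← mul_assoc]
    rw [← Finset.sum_mul, ← Finset.mul_sum]
    have := sum_geometric_two_le (N.card + 1)
    norm_num
    norm_num at this
    linarith
  have hc := probReal_compl_eq_one_sub (μ := cube α) (measurableSet_good M)
  have := (measureReal_mono (μ := cube α) hsub (measure_ne_top _ _)).trans
    ((measureReal_biUnion_finset_le J bad).trans ((Finset.sum_le_sum hj).trans hsum))
  linarith

end Vale.Agent.P331
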