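import Vale.Agent.P331.Expect

/-!
The two rules together collect a constant fraction of the optimum.
-/

open MeasureTheory Set
open scoped NNReal ENNReal

namespace Vale.Agent.P331

variable {α : Type*} [Fintype α] (D : Measure ℝ≥0) [IsProbabilityMeasure D] (M : Matroid α)

/-- The rank below which an element is surely active. -/
noncomputable def thr (e : α) : ℝ := (cut M e : ℝ) / (2 * (live M).card)

/-- The small rank of the single element rule. -/
noncomputable def tiny : ℝ := 1 / (4 * ((live M).card : ℝ))

/-- The samples and draws for which the chain rule surely takes an element. -/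
noncomputable def chainEv (lev : α → ℕ) (e : α) : Set ((α → Draw) × (α → Draw)) :=
  open scoped Classical in
  if M.IsNonloop e ∧ 64 ≤ level M e then
    {S | Good M (ranks D S)} ×ˢ
      ({V | Free M lev (maybe M (ranks D V)) e} ∩ {V | quant D (V e) ≤ thr M e})
  else ∅

/-- The samples for the single element rule. -/
def lowSamples : Set (α → ℝ) :=
  {u | (∀ i ∈ live M, ¬ u i ≤ tiny M) ∧ ¬ ∀ i ∈ live M, ¬ u i ≤ 2 * tiny M}

/-- The samples and draws for which the single element rule surely takes an element. -/
noncomputable def singleEv (e : α) : Set ((α → Draw) × (α → Draw)) :=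
  open scoped Classical in
  if M.IsNonloop e then
    {S | ranks D S ∈ lowSamples M} ×ˢ
      ({V | ∀ f ∈ (live M).erase e, ¬ quant D (V f) ≤ 2 * tiny M} ∩
        {V | quant D (V e) ≤ tiny M})
  else ∅

variable {D M}

lemma mem_live {e : α} : e ∈ live M ↔ M.IsNonloop e := by simp [live]

lemma cut_facts {e : α} (h : 64 ≤ level M e) :
    64 ≤ cut M e ∧ 8 * cut M e ≤ (live M).card ∧
      (cut M e : ℝ) * 8 ≤ marg M e * (live M).card ∧
      marg M e * (live M).card < 16 * (cut M e : ℝ) := by
  have h1 : cut M e ≤ level M e := Nat.pow_log_le_self 2 (by omega)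
  have h2 : level M e < 2 * cut M e := by
    have := Nat.lt_pow_succ_log_self (show 1 < 2 by norm_num) (level M e)
    rwa [pow_succ, mul_comm] at this
  have h6 : 6 ≤ Nat.log 2 (level M e) := Nat.le_log_of_pow_le (by norm_num) (by omega)
  have hx : 0 ≤ marg M e * (live M).card / 8 :=
    div_nonneg (mul_nonneg (marg_nonneg e) (Nat.cast_nonneg _)) (by norm_num)
  have h3 : (level M e : ℝ) ≤ marg M e * (live M).card / 8 := Nat.floor_le hx
  have h4 : marg M e * (live M).card / 8 < (level M e : ℝ) + 1 := Nat.lt_floor_add_one _
  have h5 : (cut M e : ℝ) ≤ level M e := Nat.cast_le.2 h1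
  have h7 : (level M e : ℝ) + 1 ≤ 2 * cut M e := by exact_mod_cast h2
  refine ⟨?_, ?_, by linarith, by linarith⟩
  · calc 64 = 2 ^ 6 := by norm_num
      _ ≤ cut M e := Nat.pow_le_pow_right (by norm_num) h6
  · have : marg M e * (live M).card ≤ (live M).card :=
      mul_le_of_le_one_left (Nat.cast_nonneg _) (marg_le_one e)
    exact_mod_cast (show (8 : ℝ) * cut M e ≤ (live M).card by linarith)

omit [Fintype α] in
lemma cnt_eq (N : Finset α) (s : ℝ) (u : α → ℝ) :
    cnt N s u = ((N.filter fun i => u i ≤ s).card : ℝ) := by
  unfold cnt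
  simp [Set.indicator_apply, Finset.sum_boole]

lemma active_maybe {S : α → Draw} (hS : Good M (ranks D S)) {f : α} {z : Draw}
    (h : Active M S f z) : quant D z ≤ marg M f / 4 := by
  classical
  obtain ⟨-, hbig, hb⟩ := h
  obtain ⟨h1, h2, h3, -⟩ := cut_facts hbig
  have hn : (0 : ℝ) < (live M).card := by exact_mod_cast (show 0 < (live M).card by omega)
  have hg := (hS (Nat.log 2 (level M f)) h1 h2).1
  by_contra hlt
  rw [not_le] at hlt
  have hle : (2 : ℝ) * 2 ^ Nat.log 2 (level M f) / (live M).card ≤ marg M f / 4 := by
    rw [div_le_iff₀ hn]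
    have : ((cut M f : ℕ) : ℝ) = 2 ^ Nat.log 2 (level M f) := by simp [cut]
    linarith
  rw [cnt_eq] at hg
  have hsub : ((live M).filter fun i =>
      ranks D S i ≤ 2 * 2 ^ Nat.log 2 (level M f) / (live M).card).card ≤ beatCount M S z :=
    Finset.card_le_card fun i hi => by
      simp only [Finset.mem_filter] at hi ⊢
      exact ⟨hi.1, beats_of_quant_lt D (lt_of_le_of_lt (hi.2.trans hle) hlt)⟩
  have hcon : cut M f ≤ beatCount M S z := by
    refine le_trans ?_ hsub
    exact_mod_cast hg
  omega

lemma active_of_le {S : α → Draw} (hS : Good M (ranks D S)) {e : α} {z : Draw}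
    (he : M.IsNonloop e) (hbig : 64 ≤ level M e) (hz : quant D z ≤ thr M e) :
    Active M S e z := by
  classical
  obtain ⟨h1, h2, -, -⟩ := cut_facts hbig
  refine ⟨he, hbig, ?_⟩
  have hg := (hS (Nat.log 2 (level M e)) h1 h2).2
  rw [cnt_eq] at hg
  have hsub : beatCount M S z ≤ ((live M).filter fun i =>
      ranks D S i ≤ 2 ^ Nat.log 2 (level M e) / (2 * (live M).card)).card :=
    Finset.card_le_card fun i hi => by
      simp only [Finset.mem_filter] at hi ⊢
      refine ⟨hi.1, (quant_le_of_beats D hi.2).trans (hz.trans (le_of_eq ?_))⟩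
      simp [thr, cut]
  refine lt_of_le_of_lt hsub ?_
  unfold cut
  exact_mod_cast hg

lemma chain_event {lev : α → ℕ} {S V : α → Draw} {e : α} (h : (S, V) ∈ chainEv D M lev e)
    (l : List α) (hl : e ∈ l) : e ∈ l.foldl (step M lev S V true) ∅ := by
  unfold chainEv at h
  split at h
  next hc =>
    obtain ⟨hS, hfree, hthr⟩ := h
    exact chain_takes (R := maybe M (ranks D V)) (fun f hf => active_maybe hS hf)
      (active_of_le hS hc.1 hc.2 hthr) hfree l hl
  next => exact absurd h (notMem_empty _)

lemma single_event {lev : α → ℕ} {S V : α → Draw} {e : α} (h : (S, V) ∈ singleEv D M e)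
    (l : List α) (hl : e ∈ l) : e ∈ l.foldl (step M lev S V false) ∅ := by
  classical
  unfold singleEv at h
  split at h
  next hc =>
    obtain ⟨⟨hnone, hsome⟩, hothers, he⟩ := h
    refine single_takes hc ?_ (fun f hf hf' => ?_) l hl
    · simp only [beatCount, Finset.card_eq_zero, Finset.filter_eq_empty_iff]
      exact fun i hi hb => hnone i hi ((quant_le_of_beats D hb).trans he)
    · simp only [not_forall, not_not] at hsome
      obtain ⟨i, hi, hui⟩ := hsome
      have hfq := hothers f (Finset.mem_erase.2 ⟨hf, mem_live.2 hf'⟩)
      rw [not_le] at hfq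
      simp only [beatCount, ne_eq, Finset.card_eq_zero, Finset.filter_eq_empty_iff, not_forall,
        not_not]
      exact ⟨i, hi, beats_of_quant_lt D (lt_of_le_of_lt hui hfq)⟩
  next => exact absurd h (notMem_empty _)

omit [Fintype α] in
lemma measurable_value (e : α) : Measurable fun V : α → Draw => ((V e).1 : ℝ≥0∞) :=
  (measurable_fst.comp (measurable_pi_apply e)).coe_nnreal_ennreal

omit [Fintype α] in
lemma measurableSet_coord (e : α) (s : ℝ) :
    MeasurableSet {V : α → Draw | quant D (V e) ≤ s} :=
  measurableSet_le ((measurable_quant D).comp (measurable_pi_apply e)) measurable_const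

lemma lintegral_coord [DecidableEq α] (e : α) {A : Set (α → Draw)} (hA : MeasurableSet A)
    (hAe : ∀ x y, Function.update x e y ∈ A ↔ x ∈ A) (s : ℝ) :
    ∫⁻ V in A ∩ {V | quant D (V e) ≤ s}, ((V e).1 : ℝ≥0∞) ∂draws α D =
      draws α D A * topMean D s := by
  have hs := measurableSet_coord (D := D) e s
  rw [inter_comm, ← Measure.restrict_restrict hs, ← lintegral_indicator hs]
  have := lintegral_split (drawLaw D) e
    (f := {z | quant D z ≤ s}.indicator fun z => (z.1 : ℝ≥0∞))
    (measurable_fst.coe_nnreal_ennreal.indicator (measurableSet_quant_le D s)) hA hAe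
  rw [lintegral_indicator (measurableSet_quant_le D s)] at this
  exact this

lemma measurableSet_chainEv (lev : α → ℕ) (e : α) : MeasurableSet (chainEv D M lev e) := by
  unfold chainEv
  split
  · exact ((ranks_preserving D).measurable (measurableSet_good M)).prod
      (((ranks_preserving D).measurable (measurableSet_event M fun R => Free M lev R e)).inter
        (measurableSet_coord e _))
  · exact MeasurableSet.empty

lemma measurableSet_lowSamples : MeasurableSet (lowSamples M) := by
  have h : ∀ s : ℝ, MeasurableSet {u : α → ℝ | ∀ i ∈ live M, ¬ u i ≤ s} := fun s => by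
    simp only [Set.ofPred_forall]
    exact MeasurableSet.iInter fun i => MeasurableSet.iInter fun _ =>
      (measurableSet_le (measurable_pi_apply i) measurable_const).compl
  exact (h _).inter (h _).compl

lemma measurableSet_singleEv (e : α) : MeasurableSet (singleEv D M e) := by
  unfold singleEv
  split
  · refine ((ranks_preserving D).measurable measurableSet_lowSamples).prod
      (MeasurableSet.inter ?_ (measurableSet_coord e _))
    simp only [Set.ofPred_forall]
    exact MeasurableSet.iInter fun f => MeasurableSet.iInter fun _ =>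
      (measurableSet_coord f _).compl
  · exact MeasurableSet.empty

lemma event_value {A : Set (α → Draw)} (_hA : MeasurableSet A) {B : Set (α → Draw)}
    (_hB : MeasurableSet B) (e : α) :
    ∫⁻ p in A ×ˢ B, ((p.2 e).1 : ℝ≥0∞) ∂(draws α D).prod (draws α D) =
      draws α D A * ∫⁻ V in B, ((V e).1 : ℝ≥0∞) ∂draws α D := by
  rw [← Measure.prod_restrict, lintegral_prod (fun p : (α → Draw) × (α → Draw) => ((p.2 e).1 : ℝ≥0∞))
      ((measurable_value e).comp measurable_snd).aemeasurable]
  dsimp only
  rw [lintegral_const, Measure.restrict_apply_univ, mul_comm]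

lemma draws_real {A : Set (α → ℝ)} (hA : MeasurableSet A) :
    draws α D (ranks D ⁻¹' A) = ENNReal.ofReal ((cube α).real A) := by
  rw [(ranks_preserving D).measure_preimage hA.nullMeasurableSet,
    ofReal_measureReal (measure_ne_top _ _)]

/-- Every element is paid for by one of the two rules. -/
lemma element_bound (lev : α → ℕ) (hE : M.E = univ)
    (hlev : ∀ e, M.IsNonloop e → 1 / 2 ≤ (cube α).real {u | Free M lev (maybe M u) e}) (e : α) :
    topMean D (marg M e) ≤ 50000 *
      (∫⁻ p in chainEv D M lev e, ((p.2 e).1 : ℝ≥0∞) ∂(draws α D).prod (draws α D) +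
        ∫⁻ p in singleEv D M e, ((p.2 e).1 : ℝ≥0∞) ∂(draws α D).prod (draws α D)) := by
  classical
  by_cases he : M.IsNonloop e
  swap
  · rw [marg_loop hE he, topMean_zero]
    exact zero_le
  set n : ℝ := ((live M).card : ℝ) with hn
  have hn1 : (1 : ℝ) ≤ n := by
    rw [hn]
    exact_mod_cast Finset.card_pos.2 ⟨e, mem_live.2 he⟩
  by_cases hbig : 64 ≤ level M e
  · refine le_trans ?_ (mul_le_mul' le_rfl le_self_add)
    obtain ⟨h1, -, h3, h4⟩ := cut_facts hbig
    have ht0 : 0 < thr M e := by
      unfold thr
      have : (0 : ℝ) < cut M e := by exact_mod_cast (show 0 < cut M e by omega)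
      rw [← hn]
      positivity
    have htq : thr M e ≤ marg M e := by
      rw [thr, ← hn, div_le_iff₀ (by positivity)]
      nlinarith [marg_nonneg (M := M) e]
    have hG := measurableSet_good M
    have hF := measurableSet_event M fun R => Free M lev R e
    rw [chainEv, if_pos ⟨he, hbig⟩,
      show {V : α → Draw | Free M lev (maybe M (ranks D V)) e} =
        ranks D ⁻¹' {u | Free M lev (maybe M u) e} from rfl,
      show {S : α → Draw | Good M (ranks D S)} = ranks D ⁻¹' {u | Good M u} from rfl,
      event_value (((ranks_preserving D).measurable hG))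
      (((ranks_preserving D).measurable hF).inter
        (measurableSet_coord e _)),
      lintegral_coord (D := D) e ((ranks_preserving D).measurable hF) ?_,
      draws_real hF, draws_real hG]
    · calc topMean D (marg M e) ≤ ENNReal.ofReal (marg M e / thr M e) * topMean D (thr M e) :=
            topMean_le D ht0 htq (marg_le_one e)
        _ ≤ ENNReal.ofReal (50000 * ((cube α).real {u | Good M u} *
              (cube α).real {u | Free M lev (maybe M u) e})) * topMean D (thr M e) := by
            refine mul_le_mul' (ENNReal.ofReal_le_ofReal ?_) le_rfl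
            have hp := mul_le_mul (good_prob M) (hlev e he) (by norm_num) measureReal_nonneg
            refine le_trans ((div_le_iff₀ ht0).2 (le_of_lt ?_) : marg M e / thr M e ≤ 32) (by linarith)
            rw [thr, ← hn, ← mul_div_assoc, lt_div_iff₀ (by positivity)]
            linarith
        _ = _ := by
            rw [ENNReal.ofReal_mul (by norm_num), ENNReal.ofReal_mul measureReal_nonneg,
              ENNReal.ofReal_ofNat]
            ring
    · intro x y
      change Free M lev (maybe M (ranks D (Function.update x e y))) e ↔ _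
      have hset : ∀ S : Set α, (maybe M (ranks D (Function.update x e y)) ∩ S) \ {e} =
          (maybe M (ranks D x) ∩ S) \ {e} := fun S => by
        ext f
        simp only [mem_sdiff, mem_inter_iff, mem_singleton_iff, maybe, ranks, mem_ofPred_eq]
        refine and_congr_left fun hf => ?_
        rw [Function.update_of_ne hf]
      simp only [Free, hset, mem_preimage, mem_ofPred_eq]
  · refine le_trans ?_ (mul_le_mul' le_rfl le_add_self)
    have ha0 : 0 < tiny M := by
      unfold tiny
      rw [← hn]
      positivity
    have ha1 : tiny M ≤ 1 / 4 := by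
      rw [tiny, ← hn, div_le_iff₀ (by positivity)]
      linarith
    have hna : n * tiny M = 1 / 4 := by
      rw [tiny, ← hn]
      field_simp
    have hq : marg M e ≤ min 1 (2048 * tiny M) := by
      refine le_min (marg_le_one e) ?_
      have h := (Nat.floor_lt (div_nonneg (mul_nonneg (marg_nonneg (M := M) e) (Nat.cast_nonneg _))
        (by norm_num : (0 : ℝ) ≤ 8))).1 (show level M e < 64 by omega)
      push_cast at h
      rw [← hn] at h
      nlinarith
    have hlow : (1 / 12 : ℝ) ≤ (cube α).real (lowSamples M) := by
      have hA : ∀ s : ℝ, MeasurableSet {u : α → ℝ | ∀ i ∈ live M, ¬ u i ≤ s} := fun s => by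
        simp only [Set.ofPred_forall]
        exact MeasurableSet.iInter fun i => MeasurableSet.iInter fun _ =>
          (measurableSet_le (measurable_pi_apply i) measurable_const).compl
      have hv : ∀ s : ℝ, 0 ≤ s → s ≤ 1 →
          (cube α).real {u | ∀ i ∈ live M, ¬ u i ≤ s} = (1 - s) ^ (live M).card := fun s h0 h1 => by
        rcases cube_above (live M) h1 with h | h
        · rw [measureReal_def, h, ENNReal.toReal_ofReal (pow_nonneg (by linarith) _)]
        · linarith
      have hdiff : lowSamples M = {u | ∀ i ∈ live M, ¬ u i ≤ tiny M} \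
          {u | ∀ i ∈ live M, ¬ u i ≤ 2 * tiny M} := rfl
      have hss : {u : α → ℝ | ∀ i ∈ live M, ¬ u i ≤ 2 * tiny M} ⊆
          {u | ∀ i ∈ live M, ¬ u i ≤ tiny M} := fun u h i hi hle =>
        h i hi (hle.trans (by linarith))
      rw [hdiff, measureReal_sdiff hss (hA _), hv _ ha0.le (by linarith),
        hv _ (by linarith) (by linarith)]
      have b1 := one_add_mul_le_pow (show -2 ≤ -tiny M by linarith) (live M).card
      have b2 := one_add_mul_le_pow (show -2 ≤ 2 * tiny M by linarith) (live M).card
      have b3 : (1 - 2 * tiny M) ^ (live M).card * (1 + 2 * tiny M) ^ (live M).card ≤ 1 := by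
        rw [← mul_pow]
        exact pow_le_one₀ (by nlinarith) (by nlinarith)
      rw [← hn] at b1 b2
      rw [← sub_eq_add_neg] at b1
      have b4 : 0 ≤ (1 - 2 * tiny M) ^ (live M).card := pow_nonneg (by linarith) _
      nlinarith [mul_le_mul_of_nonneg_left b2 b4]
    have hoth : (1 / 2 : ℝ) ≤
        (cube α).real {u | ∀ f ∈ (live M).erase e, ¬ u f ≤ 2 * tiny M} := by
      rcases cube_above ((live M).erase e) (show 2 * tiny M ≤ 1 by linarith) with h | h
      · rw [measureReal_def, h, ENNReal.toReal_ofReal (pow_nonneg (by linarith) _)]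
        have b1 := one_add_mul_le_pow (show -2 ≤ -(2 * tiny M) by linarith) (live M).card
        rw [← hn, ← sub_eq_add_neg] at b1
        have b5 : (1 - 2 * tiny M) ^ (live M).card ≤
            (1 - 2 * tiny M) ^ ((live M).erase e).card :=
          pow_le_pow_of_le_one (by linarith) (by linarith) (Finset.card_erase_le)
        linarith
      · linarith
    have hO : MeasurableSet {u : α → ℝ | ∀ f ∈ (live M).erase e, ¬ u f ≤ 2 * tiny M} := by
      simp only [Set.ofPred_forall]
      exact MeasurableSet.iInter fun i => MeasurableSet.iInter fun _ =>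
        (measurableSet_le (measurable_pi_apply i) measurable_const).compl
    have hset : {V : α → Draw | ∀ f ∈ (live M).erase e, ¬ quant D (V f) ≤ 2 * tiny M} =
        ranks D ⁻¹' {u | ∀ f ∈ (live M).erase e, ¬ u f ≤ 2 * tiny M} := rfl
    rw [singleEv, if_pos he, hset,
      show {S : α → Draw | ranks D S ∈ lowSamples M} = ranks D ⁻¹' lowSamples M from rfl, event_value ((ranks_preserving D).measurable measurableSet_lowSamples)
      (((ranks_preserving D).measurable hO).inter
        (measurableSet_coord e _)),
      lintegral_coord (D := D) e ((ranks_preserving D).measurable hO) ?_, draws_real hO,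
      draws_real measurableSet_lowSamples]
    · calc topMean D (marg M e) ≤ topMean D (min 1 (2048 * tiny M)) := topMean_mono D hq
        _ ≤ ENNReal.ofReal (min 1 (2048 * tiny M) / tiny M) * topMean D (tiny M) :=
            topMean_le D ha0 (le_min (by linarith) (by linarith)) (min_le_left _ _)
        _ ≤ ENNReal.ofReal (50000 * ((cube α).real (lowSamples M) *
              (cube α).real {u | ∀ f ∈ (live M).erase e, ¬ u f ≤ 2 * tiny M})) *
              topMean D (tiny M) := by
            refine mul_le_mul' (ENNReal.ofReal_le_ofReal ?_) le_rfl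
            have hp := mul_le_mul hlow hoth (by norm_num) measureReal_nonneg
            refine le_trans ((div_le_iff₀ ha0).2 (min_le_right _ _) :
              min 1 (2048 * tiny M) / tiny M ≤ 2048) (by linarith)
        _ = _ := by
            rw [ENNReal.ofReal_mul (by norm_num), ENNReal.ofReal_mul measureReal_nonneg,
              ENNReal.ofReal_ofNat]
            ring
    · intro x y
      simp only [mem_preimage, mem_ofPred_eq, ranks]
      refine forall₂_congr fun f hf => ?_
      rw [Function.update_of_ne (Finset.ne_of_mem_erase hf)]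

end Vale.Agent.P331
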