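import Mathlib

/-!
Randomised tie breaking turns every law on nonnegative values into a uniform rank.
-/

open MeasureTheory Set
open scoped NNReal ENNReal

namespace Vale.Agent.P331

/-- A value together with its tie breaking tag. -/
abbrev Draw := ℝ≥0 × ℝ

/-- The uniform law of a tag. -/
noncomputable def unif : Measure ℝ := volume.restrict (Icc 0 1)

instance : IsProbabilityMeasure unif := ⟨by simp [unif]⟩

/-- The law of a draw. -/
noncomputable def drawLaw (D : Measure ℝ≥0) : Measure Draw := D.prod unif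

/-- Truncation of a tag. -/
noncomputable def tag (t : ℝ) : ℝ := max 0 (min 1 t)

/-- The first draw beats the second one. -/
def Beats (y z : Draw) : Prop := z.1 < y.1 ∨ (z.1 = y.1 ∧ z.2 < y.2)

/-- The mass above a value. -/
noncomputable def upper (D : Measure ℝ≥0) (v : ℝ≥0) : ℝ := D.real (Ioi v)

/-- The rank of a draw, small for large draws. -/
noncomputable def quant (D : Measure ℝ≥0) (z : Draw) : ℝ :=
  upper D z.1 + D.real {z.1} * (1 - tag z.2)

variable (D : Measure ℝ≥0) [IsProbabilityMeasure D]

instance : IsProbabilityMeasure (drawLaw D) := by unfold drawLaw; infer_instance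

lemma real_Ici (v : ℝ≥0) : D.real (Ici v) = upper D v + D.real {v} := by
  rw [upper, ← measureReal_union (by simp) (measurableSet_singleton v)]
  congr 1
  ext x
  simp [le_iff_eq_or_lt]

lemma upper_antitone : Antitone (upper D) := fun _ _ h => measureReal_mono (Ioi_subset_Ioi h)

lemma tag_mem (t : ℝ) : 0 ≤ tag t ∧ tag t ≤ 1 := ⟨le_max_left _ _, max_le zero_le_one (min_le_left _ _)⟩

lemma upper_le_quant (z : Draw) : upper D z.1 ≤ quant D z :=
  le_add_of_nonneg_right (mul_nonneg measureReal_nonneg (by linarith [(tag_mem z.2).2]))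

lemma quant_le (z : Draw) : quant D z ≤ D.real (Ici z.1) := by
  rw [real_Ici, quant]
  exact add_le_add le_rfl (mul_le_of_le_one_right measureReal_nonneg (by linarith [(tag_mem z.2).1]))

lemma quant_nonneg (z : Draw) : 0 ≤ quant D z := (measureReal_nonneg).trans (upper_le_quant D z)

lemma quant_le_one (z : Draw) : quant D z ≤ 1 := (quant_le D z).trans measureReal_le_one

lemma quant_le_of_beats {y z : Draw} (h : Beats y z) : quant D y ≤ quant D z := by
  rcases h with h | ⟨h1, h2⟩
  · exact (quant_le D y).trans ((measureReal_mono fun x (hx : y.1 ≤ x) => h.trans_le hx).trans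
      (upper_le_quant D z))
  · rw [quant, quant, ← h1]
    have : tag z.2 ≤ tag y.2 := max_le_max le_rfl (min_le_min le_rfl h2.le)
    gcongr

lemma beats_of_quant_lt {y z : Draw} (h : quant D y < quant D z) : Beats y z := by
  by_contra hc
  rcases lt_trichotomy y.1 z.1 with h1 | h1 | h1
  · exact absurd (quant_le_of_beats D (y := z) (z := y) (Or.inl h1)) (not_le.2 h)
  · rcases lt_trichotomy y.2 z.2 with h2 | h2 | h2
    · exact absurd (quant_le_of_beats D (y := z) (z := y) (Or.inr ⟨h1, h2⟩)) (not_le.2 h)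
    · rw [Prod.ext h1 h2] at h
      exact lt_irrefl _ h
    · exact hc (Or.inr ⟨h1.symm, h2⟩)
  · exact hc (Or.inl h1)

lemma value_le_of_quant_lt {y z : Draw} (h : quant D y < quant D z) : z.1 ≤ y.1 := by
  rcases beats_of_quant_lt D h with h' | ⟨h', -⟩
  · exact h'.le
  · exact h'.le

lemma measurable_quant : Measurable (quant D) := by
  have h1 : Measurable (upper D) := (upper_antitone D).measurable
  have h2 : Measurable fun v : ℝ≥0 => D.real {v} := by
    have : (fun v : ℝ≥0 => D.real {v}) = fun v => D.real (Ici v) - upper D v := by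
      funext v
      rw [real_Ici]
      ring
    rw [this]
    exact (Antitone.measurable fun _ _ h => measureReal_mono (Ici_subset_Ici.2 h)).sub h1
  unfold quant
  exact (h1.comp measurable_fst).add ((h2.comp measurable_fst).mul (by unfold tag; fun_prop))

lemma unif_Ici {a : ℝ} (h0 : 0 ≤ a) (h1 : a ≤ 1) : unif.real (Ici a) = 1 - a := by
  rw [measureReal_def, unif, Measure.restrict_apply measurableSet_Ici,
    show Ici a ∩ Icc 0 1 = Icc a 1 by ext x; simp; intros; linarith, Real.volume_Icc,
    ENNReal.toReal_ofReal (by linarith)]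

lemma quant_law_pos {s : ℝ} (hs : 0 < s) (hs1 : s ≤ 1) :
    (drawLaw D).real {z | quant D z ≤ s} = s := by
  have hne : ({v : ℝ≥0 | upper D v ≤ s}).Nonempty := by
    have h := tendsto_measure_iInter_atTop (μ := D) (s := fun n : ℕ => Ioi (n : ℝ≥0))
      (fun n => measurableSet_Ioi.nullMeasurableSet)
      (fun m n h => Ioi_subset_Ioi (Nat.cast_le.2 h)) ⟨0, measure_ne_top _ _⟩
    have hI : (⋂ n : ℕ, Ioi (n : ℝ≥0)) = ∅ := by
      ext x
      simp only [mem_iInter, mem_Ioi, mem_empty_iff_false, iff_false, not_forall, not_lt]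
      exact exists_nat_ge x
    rw [hI, measure_empty] at h
    obtain ⟨N, hN⟩ := (h.eventually (gt_mem_nhds (ENNReal.ofReal_pos.2 hs))).exists
    refine ⟨N, ?_⟩
    exact (ENNReal.toReal_le_toReal (measure_ne_top _ _) ENNReal.ofReal_ne_top).2 hN.le |>.trans
      (le_of_eq (ENNReal.toReal_ofReal hs.le))
  set c := sInf {v : ℝ≥0 | upper D v ≤ s} with hc
  have habove : ∀ v, c < v → upper D v ≤ s := fun v hv => by
    obtain ⟨w, hw, hwv⟩ := exists_lt_of_csInf_lt hne hv
    exact (upper_antitone D hwv.le).trans hw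
  have hbelow : ∀ v, v < c → s < upper D v := fun v hv => not_le.1 fun h =>
    absurd (csInf_le (OrderBot.bddBelow {v : ℝ≥0 | upper D v ≤ s}) h) (not_le.2 hv)
  have hcs : upper D c ≤ s := by
    have hmono : Monotone fun n : ℕ => Ioi (c + 1 / ((n : ℝ≥0) + 1)) := fun m n h =>
      Ioi_subset_Ioi (add_le_add le_rfl (one_div_le_one_div_of_le (by positivity)
        (add_le_add (Nat.cast_le.2 h) le_rfl)))
    have hU : (⋃ n : ℕ, Ioi (c + 1 / ((n : ℝ≥0) + 1))) = Ioi c := by
      ext x
      simp only [mem_iUnion, mem_Ioi]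
      refine ⟨fun ⟨n, hn⟩ => lt_of_le_of_lt le_self_add hn, fun hx => ?_⟩
      obtain ⟨n, hn⟩ := exists_nat_one_div_lt (sub_pos.2 (NNReal.coe_lt_coe.2 hx))
      refine ⟨n, ?_⟩
      rw [← NNReal.coe_lt_coe]
      push_cast
      linarith
    have hle : D (Ioi c) ≤ ENNReal.ofReal s := by
      rw [← hU, hmono.measure_iUnion]
      exact iSup_le fun n => (ENNReal.le_ofReal_iff_toReal_le (measure_ne_top _ _) hs.le).2
        (habove _ (lt_add_of_pos_right c (by positivity)))
    exact (ENNReal.le_ofReal_iff_toReal_le (measure_ne_top _ _) hs.le).1 hle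
  have hci : s ≤ D.real (Ici c) := by
    by_cases h0 : c = 0
    · rw [h0, show (Ici (0 : ℝ≥0)) = univ by ext; simp, probReal_univ]
      exact hs1
    have hanti : Antitone fun n : ℕ => Ioi (c - c / ((n : ℝ≥0) + 1)) := fun m n h =>
      Ioi_subset_Ioi (tsub_le_tsub_left (div_le_div_of_nonneg_left zero_le (by positivity)
        (add_le_add (Nat.cast_le.2 h) le_rfl)) c)
    have hcpos : 0 < c := pos_iff_ne_zero.2 h0
    have hlt : ∀ n : ℕ, c - c / ((n : ℝ≥0) + 1) < c := fun n =>
      tsub_lt_self hcpos (by positivity)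
    have hI : (⋂ n : ℕ, Ioi (c - c / ((n : ℝ≥0) + 1))) = Ici c := by
      ext x
      simp only [mem_iInter, mem_Ioi, mem_Ici]
      refine ⟨fun h => ?_, fun h n => (hlt n).trans_le h⟩
      by_contra hx
      rw [not_le] at hx
      have hx' : (0 : ℝ) < ((c : ℝ) - x) / c :=
        div_pos (sub_pos.2 (NNReal.coe_lt_coe.2 hx)) (NNReal.coe_pos.2 hcpos)
      obtain ⟨n, hn⟩ := exists_nat_one_div_lt hx'
      have h2 := NNReal.coe_lt_coe.2 (h n)
      have hcle : c / ((n : ℝ≥0) + 1) ≤ c := div_le_self zero_le le_add_self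
      rw [NNReal.coe_sub hcle] at h2
      push_cast at h2
      rw [div_lt_div_iff₀ (by positivity) (NNReal.coe_pos.2 hcpos)] at hn
      have hd : (c : ℝ) / ((n : ℝ) + 1) * ((n : ℝ) + 1) = c := by field_simp
      have hn1 : (0 : ℝ) < (n : ℝ) + 1 := by positivity
      nlinarith [mul_lt_mul_of_pos_right h2 hn1]
    have h := tendsto_measure_iInter_atTop (μ := D)
      (s := fun n : ℕ => Ioi (c - c / ((n : ℝ≥0) + 1)))
      (fun n => measurableSet_Ioi.nullMeasurableSet) hanti ⟨0, measure_ne_top _ _⟩
    rw [hI] at h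
    have hge := ge_of_tendsto' h fun n =>
      ((ENNReal.ofReal_le_iff_le_toReal (measure_ne_top _ _)).2 (hbelow _ (hlt n)).le)
    exact (ENNReal.ofReal_le_iff_le_toReal (measure_ne_top _ _)).1 hge
  rw [real_Ici] at hci
  have hset : {z : Draw | quant D z ≤ s} =
      Ioi c ×ˢ univ ∪ {c} ×ˢ {t : ℝ | D.real {c} * (1 - tag t) ≤ s - upper D c} := by
    ext ⟨v, t⟩
    simp only [mem_ofPred_eq, mem_union, mem_prod, mem_Ioi, mem_univ, and_true, mem_singleton_iff]
    constructor
    · intro h
      rcases lt_trichotomy v c with hv | hv | hv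
      · exact absurd ((upper_le_quant D (v, t)).trans h) (not_le.2 (hbelow v hv))
      · refine Or.inr ⟨hv, ?_⟩
        subst hv
        simp only [quant] at h
        linarith
      · exact Or.inl hv
    · rintro (hv | ⟨rfl, hv⟩)
      · exact (quant_le D (v, t)).trans ((measureReal_mono fun x (hx : v ≤ x) => hv.trans_le hx).trans hcs)
      · simp only [quant]
        linarith
  have hm : MeasurableSet {t : ℝ | D.real {c} * (1 - tag t) ≤ s - upper D c} :=
    measurableSet_le (by unfold tag; fun_prop) measurable_const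
  rw [hset, measureReal_union (Set.disjoint_left.2 fun z h1 h2 => by
      simp only [mem_prod, mem_Ioi, mem_singleton_iff] at h1 h2
      exact h1.1.ne' h2.1) ((measurableSet_singleton c).prod hm), drawLaw, measureReal_prod_prod,
    measureReal_prod_prod, probReal_univ, mul_one, ← upper]
  rcases (measureReal_nonneg : 0 ≤ D.real {c}).eq_or_lt with hp | hp
  · rw [← hp] at hci ⊢
    linarith
  · set r := (s - upper D c) / D.real {c} with hr
    have hr0 : 0 ≤ r := div_nonneg (by linarith) hp.le
    have hr1 : r ≤ 1 := (div_le_one hp).2 (by linarith)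
    have hae : {t : ℝ | D.real {c} * (1 - tag t) ≤ s - upper D c} =ᵐ[unif] Ici (1 - r) := by
      have hmem : ∀ᵐ t ∂unif, t ∈ Icc (0 : ℝ) 1 := ae_restrict_mem measurableSet_Icc
      filter_upwards [hmem] with t ht
      have : tag t = t := by rw [tag, min_eq_right ht.2, max_eq_right ht.1]
      apply propext
      change (D.real {c} * (1 - tag t) ≤ _) ↔ 1 - r ≤ t
      rw [this, mul_comm, ← le_div_iff₀ hp, ← hr]
      constructor <;> intro <;> linarith
    rw [measureReal_congr hae, unif_Ici (by linarith) (by linarith), hr]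
    field_simp
    ring

lemma quant_map : (drawLaw D).map (quant D) = unif := by
  have := Measure.isProbabilityMeasure_map (μ := drawLaw D) (measurable_quant D).aemeasurable
  refine Measure.ext_of_Iic _ _ fun s => ?_
  rw [Measure.map_apply (measurable_quant D) measurableSet_Iic]
  have hU : ∀ s, unif (Iic s) = ENNReal.ofReal (min s 1) := fun s => by
    rw [unif, Measure.restrict_apply measurableSet_Iic,
      show Iic s ∩ Icc (0 : ℝ) 1 = Icc 0 (min s 1) by ext x; simp; tauto, Real.volume_Icc, sub_zero]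
  rw [hU]
  have key : ∀ t, 0 < t → drawLaw D (quant D ⁻¹' Iic t) = ENNReal.ofReal (min t 1) := fun t ht => by
    rcases le_or_gt t 1 with h | h
    · rw [min_eq_left h]
      exact (ofReal_measureReal (measure_ne_top _ _)).symm.trans
        (congrArg ENNReal.ofReal (quant_law_pos D ht h))
    · rw [min_eq_right h.le, show quant D ⁻¹' Iic t = univ from
        eq_univ_of_forall fun z => (quant_le_one D z).trans h.le]
      simp
  rcases lt_or_ge 0 s with h | h
  · exact key s h
  · rw [ENNReal.ofReal_eq_zero.2 ((min_le_left _ _).trans h), ← nonpos_iff_eq_zero]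
    refine ENNReal.le_of_forall_pos_le_add fun ε hε _ => ?_
    rw [zero_add]
    calc drawLaw D (quant D ⁻¹' Iic s) ≤ drawLaw D (quant D ⁻¹' Iic (ε : ℝ)) :=
          measure_mono (preimage_mono (Iic_subset_Iic.2 (h.trans ε.2)))
      _ ≤ _ := by
        rw [key _ (NNReal.coe_pos.2 hε)]
        exact (ENNReal.ofReal_le_ofReal (min_le_left _ _)).trans (by simp)

/-- The mean value of the draws of rank at most `s`. -/
noncomputable def topMean (s : ℝ) : ℝ≥0∞ :=
  ∫⁻ z in {z | quant D z ≤ s}, (z.1 : ℝ≥0∞) ∂drawLaw D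

lemma measure_quant_le {s : ℝ} (_h0 : 0 ≤ s) (h1 : s ≤ 1) :
    drawLaw D {z | quant D z ≤ s} = ENNReal.ofReal s := by
  have h := congrArg (fun μ : Measure ℝ => μ (Iic s)) (quant_map D)
  simp only [Measure.map_apply (measurable_quant D) measurableSet_Iic] at h
  rw [show {z | quant D z ≤ s} = quant D ⁻¹' Iic s from rfl, h, unif,
    Measure.restrict_apply measurableSet_Iic,
    show Iic s ∩ Icc (0 : ℝ) 1 = Icc 0 s by ext x; simp; constructor <;> intro h <;> refine ?_ <;>
      [exact ⟨h.2.1, h.1⟩; exact ⟨h.2, h.1, h.2.trans h1⟩], Real.volume_Icc, sub_zero]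

lemma exists_threshold {s : ℝ} (h0 : 0 < s) (h1 : s ≤ 1) :
    ∃ c : ℝ≥0, (∀ z, quant D z ≤ s → c ≤ z.1) ∧ ∀ z, s < quant D z → z.1 ≤ c := by
  have hne : {z | quant D z ≤ s}.Nonempty :=
    nonempty_of_measure_ne_zero (μ := drawLaw D) (by
      rw [measure_quant_le D h0.le h1]
      exact ne_of_gt (ENNReal.ofReal_pos.2 h0))
  refine ⟨sInf (Prod.fst '' {z | quant D z ≤ s}), fun z hz => csInf_le (OrderBot.bddBelow _)
    ⟨z, hz, rfl⟩, fun z hz => le_csInf (hne.image _) ?_⟩
  rintro _ ⟨y, hy, rfl⟩
  exact value_le_of_quant_lt D (lt_of_le_of_lt (by exact hy) hz)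

lemma measurableSet_quant_le (s : ℝ) : MeasurableSet {z | quant D z ≤ s} :=
  measurableSet_le (measurable_quant D) measurable_const

lemma topMean_mono {s t : ℝ} (h : s ≤ t) : topMean D s ≤ topMean D t :=
  lintegral_mono_set fun _ hz => le_trans (by exact hz) h

/-- The mean over an event is largest for the event of small rank. -/
lemma lintegral_event_le {Ω : Type*} [MeasurableSpace Ω] {μ : Measure Ω} [IsProbabilityMeasure μ]
    {Z : Ω → Draw} (hZ : MeasurePreserving Z μ (drawLaw D)) {A : Set Ω} (hA : MeasurableSet A)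
    {s : ℝ} (h1 : s ≤ 1) (hs : μ A = ENNReal.ofReal s) :
    ∫⁻ ω in A, ((Z ω).1 : ℝ≥0∞) ∂μ ≤ topMean D s := by
  rcases le_or_gt s 0 with h0 | h0
  · rw [ENNReal.ofReal_eq_zero.2 h0] at hs
    rw [Measure.restrict_eq_zero.2 hs, lintegral_zero_measure]
    exact zero_le
  obtain ⟨c, hc1, hc2⟩ := exists_threshold D h0 h1
  set T := Z ⁻¹' {z | quant D z ≤ s} with hT
  have hTm : MeasurableSet T := hZ.measurable (measurableSet_quant_le D s)
  have hμT : μ T = ENNReal.ofReal s :=
    (hZ.measure_preimage (measurableSet_quant_le D s).nullMeasurableSet).trans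
      (measure_quant_le D h0.le h1)
  set f : Ω → ℝ≥0∞ := fun ω => ((Z ω).1 : ℝ≥0∞) with hf
  have hfm : Measurable f := (measurable_fst.comp hZ.measurable).coe_nnreal_ennreal
  have hpt : ∀ ω, A.indicator f ω + T.indicator (fun _ => (c : ℝ≥0∞)) ω ≤
      T.indicator f ω + A.indicator (fun _ => (c : ℝ≥0∞)) ω := by
    intro ω
    by_cases hωA : ω ∈ A <;> by_cases hωT : ω ∈ T <;>
      simp only [Set.indicator_of_mem, Set.indicator_of_notMem, hωA, hωT, not_false_eq_true,
        add_zero, zero_add, le_refl]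
    · exact ENNReal.coe_le_coe.2 (hc2 _ (not_le.1 hωT))
    · exact ENNReal.coe_le_coe.2 (hc1 _ hωT)
  have key := lintegral_mono (μ := μ) hpt
  rw [lintegral_add_left (hfm.indicator hA), lintegral_add_left (hfm.indicator hTm),
    lintegral_indicator hA, lintegral_indicator hTm, lintegral_indicator hA,
    lintegral_indicator hTm, setLIntegral_const, setLIntegral_const, hs, hμT] at key
  refine (ENNReal.le_of_add_le_add_right
    (ENNReal.mul_ne_top ENNReal.coe_ne_top ENNReal.ofReal_ne_top) key).trans (le_of_eq ?_)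
  rw [topMean, hf, hT, ← setLIntegral_map (measurableSet_quant_le D s)
    measurable_fst.coe_nnreal_ennreal hZ.measurable, hZ.map_eq]

/-- The top mean is concave enough. -/
lemma topMean_le {s t : ℝ} (h0 : 0 < s) (hst : s ≤ t) (h1 : t ≤ 1) :
    topMean D t ≤ ENNReal.ofReal (t / s) * topMean D s := by
  obtain ⟨c, hc1, hc2⟩ := exists_threshold D h0 (hst.trans h1)
  set S := {z | quant D z ≤ s}
  set T := {z | quant D z ≤ t}
  have hsub : S ⊆ T := fun z hz => le_trans (by exact hz) hst
  have hlow : (c : ℝ≥0∞) * ENNReal.ofReal s ≤ topMean D s := by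
    rw [← measure_quant_le D h0.le (hst.trans h1), ← setLIntegral_const]
    exact setLIntegral_mono' (measurableSet_quant_le D s) fun z hz =>
      ENNReal.coe_le_coe.2 (hc1 z hz)
  have hdiff : drawLaw D (T \ S) = ENNReal.ofReal (t - s) := by
    rw [measure_sdiff hsub (measurableSet_quant_le D s).nullMeasurableSet (measure_ne_top _ _),
      measure_quant_le D (h0.le.trans hst) h1, measure_quant_le D h0.le (hst.trans h1),
      ENNReal.ofReal_sub _ h0.le]
  calc topMean D t = topMean D s + ∫⁻ z in T \ S, (z.1 : ℝ≥0∞) ∂drawLaw D := by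
        rw [topMean, topMean, ← lintegral_union (MeasurableSet.diff (measurableSet_quant_le D t)
          (measurableSet_quant_le D s)) disjoint_sdiff_self_right, Set.union_sdiff_cancel hsub]
    _ ≤ topMean D s + (c : ℝ≥0∞) * ENNReal.ofReal (t - s) := by
        refine add_le_add le_rfl ?_
        rw [← hdiff, ← setLIntegral_const]
        exact setLIntegral_mono' (MeasurableSet.diff (measurableSet_quant_le D t) (measurableSet_quant_le D s))
          fun z hz => ENNReal.coe_le_coe.2 (hc2 z (not_le.1 hz.2))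
    _ ≤ topMean D s + ENNReal.ofReal ((t - s) / s) * topMean D s := by
        refine add_le_add le_rfl (le_trans (le_of_eq ?_) (mul_le_mul' le_rfl hlow))
        rw [mul_left_comm, ← ENNReal.ofReal_mul (div_nonneg (by linarith) h0.le),
          div_mul_cancel₀ _ h0.ne']
    _ = _ := by
        have e : t / s = 1 + (t - s) / s := by field_simp; ring
        rw [e, ENNReal.ofReal_add zero_le_one (div_nonneg (by linarith) h0.le),
          ENNReal.ofReal_one, add_mul, one_mul]

end Vale.Agent.P331
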