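import Mathlib

/-!
Online selection from a matroid with one sample for every element.
-/

open Set
open scoped NNReal ENNReal

namespace Vale.Agent.P331

open Classical in
/-- The accepted set after the arrivals in `l`. The rule sees the samples, the seed, the accepted
set, the arriving element and its value. -/
noncomputable def run {α R : Type*} (acc : (α → ℝ≥0) → R → Finset α → α → ℝ≥0 → Prop)
    (S : α → ℝ≥0) (r : R) (V : α → ℝ≥0) (l : List α) : Finset α :=
  l.foldl (fun A e => if acc S r A e (V e) then insert e A else A) ∅

/-- The least value collected over all arrival orders, which an almighty adversary achieves. -/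
noncomputable def worst {α R : Type*} [Fintype α]
    (acc : (α → ℝ≥0) → R → Finset α → α → ℝ≥0 → Prop)
    (S : α → ℝ≥0) (r : R) (V : α → ℝ≥0) : ℝ≥0∞ :=
  ⨅ π : Fin (Fintype.card α) ≃ α, ∑ e ∈ run acc S r V (List.ofFn π), (V e : ℝ≥0∞)

/-- The largest value of an independent set. -/
noncomputable def opt {α : Type*} (M : Matroid α) (V : α → ℝ≥0) : ℝ≥0∞ :=
  ⨆ (I : Finset α) (_ : M.Indep (I : Set α)), ∑ e ∈ I, (V e : ℝ≥0∞)

end Vale.Agent.P331
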