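import Vale.Agent.P331.Rank
import Vale.Agent.P331.Law

/-!
The cube of uniform ranks: greedy marginals, counts, and product events.
-/

open MeasureTheory Set ProbabilityTheory
open scoped ENNReal

namespace Vale.Agent.P331

lemma unif_Iic {s : ℝ} (h1 : s ≤ 1) : unif (Iic s) = ENNReal.ofReal s := by
  rw [unif, Measure.restrict_apply measurableSet_Iic,
    show Iic s ∩ Icc (0 : ℝ) 1 = Icc 0 s by
      ext x; exact ⟨fun h => ⟨h.2.1, h.1⟩, fun h => ⟨h.2, h.1, h.2.trans h1⟩⟩,
    Real.volume_Icc, sub_zero]

lemma unif_singleton (x : ℝ) : unif {x} = 0 :=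
  nonpos_iff_eq_zero.1 ((Measure.restrict_apply_le _ _).trans (by simp))

lemma unif_Iio {s : ℝ} (h1 : s ≤ 1) : unif (Iio s) = ENNReal.ofReal s := by
  rw [← unif_Iic h1, ← Iio_union_right, measure_union (by simp) (measurableSet_singleton _),
    unif_singleton, add_zero]

variable {α : Type*} [Fintype α]

section Update

variable [DecidableEq α] {X : Type*} [MeasurableSpace X] (ν : Measure X) [IsProbabilityMeasure ν]

lemma update_preserving (e : α) :
    MeasurePreserving (fun p : (α → X) × X => Function.update p.1 e p.2)
      ((Measure.pi fun _ => ν).prod ν) (Measure.pi fun _ => ν) := by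
  have hm : Measurable fun p : (α → X) × X => Function.update p.1 e p.2 := measurable_update' (a := e)
  refine ⟨hm, (Measure.pi_eq fun s hs => ?_).symm⟩
  rw [Measure.map_apply hm (.univ_pi hs)]
  have hset : (fun p : (α → X) × X => Function.update p.1 e p.2) ⁻¹' univ.pi s =
      (univ.pi (Function.update s e univ)) ×ˢ s e := by
    ext ⟨x, y⟩
    simp only [mem_preimage, mem_univ_pi, mem_prod]
    constructor
    · intro h
      refine ⟨fun i => ?_, by simpa using h e⟩
      by_cases hi : i = e
      · subst hi; simp
      · simpa [hi] using h i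
    · rintro ⟨h, hy⟩ i
      by_cases hi : i = e
      · subst hi; simpa using hy
      · simpa [hi] using h i
  rw [hset, Measure.prod_prod, Measure.pi_pi]
  simp only [Function.apply_update (fun _ => fun t : Set X => ν t)]
  rw [Finset.prod_update_of_mem (Finset.mem_univ e), measure_univ, one_mul, mul_comm]
  exact (Finset.prod_eq_mul_prod_sdiff_singleton (s := Finset.univ) e (fun i => ν (s i))
    (fun h => absurd (Finset.mem_univ e) h)).symm

/-- Splitting off one coordinate. -/
lemma lintegral_split (e : α) {f : X → ℝ≥0∞} (hf : Measurable f) {A : Set (α → X)}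
    (hA : MeasurableSet A) (hAe : ∀ x y, Function.update x e y ∈ A ↔ x ∈ A) :
    ∫⁻ x in A, f (x e) ∂(Measure.pi fun _ : α => ν) =
      (Measure.pi fun _ : α => ν) A * ∫⁻ y, f y ∂ν := by
  have hm : Measurable fun x : α → X => A.indicator (fun x => f (x e)) x :=
    (hf.comp (measurable_pi_apply e)).indicator hA
  rw [← lintegral_indicator hA, ← (update_preserving ν e).map_eq,
    lintegral_map hm (update_preserving ν e).measurable,
    lintegral_prod (fun p : (α → X) × X =>
      A.indicator (fun x => f (x e)) (Function.update p.1 e p.2))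
      (hm.comp (update_preserving ν e).measurable).aemeasurable]
  rw [show (Measure.map (fun p : (α → X) × X => Function.update p.1 e p.2)
      ((Measure.pi fun _ => ν).prod ν)) = Measure.pi fun _ => ν from (update_preserving ν e).map_eq,
    ← setLIntegral_one, ← lintegral_indicator hA, ← lintegral_mul_const _
      ((measurable_const (a := (1 : ℝ≥0∞))).indicator hA)]
  refine lintegral_congr fun x => ?_
  by_cases hx : x ∈ A <;> simp [hx, hAe]

end Update

/-- The law of independent uniform ranks. -/
noncomputable def cube (α : Type*) [Fintype α] : Measure (α → ℝ) := Measure.pi fun _ => unif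

instance : IsProbabilityMeasure (cube α) := by unfold cube; infer_instance

lemma cube_coord (e : α) {B : Set ℝ} (hB : MeasurableSet B) :
    cube α {u | u e ∈ B} = unif B :=
  (measurePreserving_eval (fun _ : α => unif) e).measure_preimage hB.nullMeasurableSet

lemma cube_injective : ∀ᵐ u ∂cube α, Function.Injective u := by
  classical
  have h : ∀ p : α × α, ∀ᵐ u ∂cube α, p.1 ≠ p.2 → u p.1 ≠ u p.2 := by
    intro ⟨e, f⟩
    by_cases hef : e = f
    · exact Filter.Eventually.of_forall fun _ h => absurd hef h
    have hm : MeasurableSet {u : α → ℝ | u e = u f} :=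
      measurableSet_eq_fun (measurable_pi_apply e) (measurable_pi_apply f)
    have h0 : cube α {u | u e = u f} = 0 := by
      rw [cube, ← (update_preserving unif e).map_eq,
        Measure.map_apply (update_preserving unif e).measurable hm,
        Measure.prod_apply ((update_preserving unif e).measurable hm)]
      simp [Ne.symm hef, Set.preimage, unif_singleton]
    filter_upwards [measure_eq_zero_iff_ae_notMem.1 h0] with u hu _ using hu
  filter_upwards [ae_all_iff.2 h] with u hu e f hef
  by_contra hne
  exact hu (e, f) hne hef

/-- The chance of being in the greedy basis of a random ranking. -/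
noncomputable def marg (M : Matroid α) (e : α) : ℝ := (cube α).real {u | e ∈ greedy M u}

variable {M : Matroid α}

lemma measurableSet_greedy (e : α) : MeasurableSet {u : α → ℝ | e ∈ greedy M u} := by
  classical
  have hp : Measurable fun u : α → ℝ => fun f => decide (u f < u e) :=
    measurable_pi_lambda _ fun f => measurable_to_bool (by
      simpa [Set.preimage] using measurableSet_lt (measurable_pi_apply f) (measurable_pi_apply e))
  have : {u : α → ℝ | e ∈ greedy M u} =
      (fun u f => decide (u f < u e)) ⁻¹' {b : α → Bool | e ∉ M.closure {f | b f = true}} := by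
    ext u
    simp [greedy]
  rw [this]
  exact hp (Set.toFinite _).measurableSet

lemma marg_nonneg (e : α) : 0 ≤ marg M e := measureReal_nonneg

lemma marg_le_one (e : α) : marg M e ≤ 1 := measureReal_le_one

lemma marg_loop {e : α} (hE : M.E = univ) (he : ¬ M.IsNonloop e) : marg M e = 0 := by
  have : {u : α → ℝ | e ∈ greedy M u} = ∅ := by
    ext u
    simp only [mem_empty_iff_false, iff_false]
    exact fun h => h (M.closure_subset_closure (empty_subset _)
      ((M.not_isNonloop_iff (by simp [hE])).1 he))
  simp [marg, this]

lemma sum_marg_le (hE : M.E = univ) (N : Finset α) : ∑ e ∈ N, marg M e ≤ rk M N := by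
  classical
  have hi : ∀ e ∈ N, Integrable (fun u => {u : α → ℝ | e ∈ greedy M u}.indicator (1 : (α → ℝ) → ℝ) u)
      (cube α) := fun e _ => (integrable_const (1 : ℝ)).indicator (measurableSet_greedy e)
  have : ∑ e ∈ N, marg M e =
      ∫ u, ∑ e ∈ N, {u : α → ℝ | e ∈ greedy M u}.indicator (1 : (α → ℝ) → ℝ) u ∂cube α := by
    rw [integral_finsetSum _ hi]
    exact Finset.sum_congr rfl fun e _ => (integral_indicator_one (measurableSet_greedy e)).symm
  rw [this]
  calc _ ≤ ∫ _u, (rk M N : ℝ) ∂cube α := by
        refine integral_mono_ae (integrable_finsetSum _ hi) (integrable_const _) ?_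
        filter_upwards [cube_injective] with u hu
        simp only [Set.indicator_apply, Pi.one_apply, mem_ofPred_eq, Finset.sum_boole]
        have := indep_card_le_rk ((greedy_indep hE hu).inter_right (N : Set α))
          inter_subset_right
        rw [show (greedy M u ∩ N : Set α) = ((N.filter (· ∈ greedy M u) : Finset α) : Set α) by
          ext; simp [and_comm], Set.ncard_coe_finset] at this
        exact_mod_cast this
    _ = _ := by simp

/-- The set that contains every element able to become active. -/
def maybe (M : Matroid α) (u : α → ℝ) : Set α := {f | u f ≤ marg M f / 4}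

/-- The number of ranks at most `s` among `N`. -/
noncomputable def cnt (N : Finset α) (s : ℝ) (u : α → ℝ) : ℝ :=
  ∑ i ∈ N, (Iic s).indicator (1 : ℝ → ℝ) (u i)

lemma count_deviation (N : Finset α) {s a : ℝ} (h0 : 0 ≤ s) (h1 : s ≤ 1) (ha : 0 < a) :
    cube α {u | a ≤ |cnt N s u - N.card * s|} ≤ ENNReal.ofReal (N.card * s / a ^ 2) := by
  have hμ : ∀ i : α, MeasurePreserving (fun u : α → ℝ => u i) (cube α) unif := fun i =>
    measurePreserving_eval (fun _ : α => unif) i
  have hX : MemLp ((Iic s).indicator (1 : ℝ → ℝ)) 2 unif :=
    memLp_indicator_const 2 measurableSet_Iic 1 (Or.inr (measure_ne_top _ _))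
  have hs : unif.real (Iic s) = s := by
    rw [measureReal_def, unif_Iic h1, ENNReal.toReal_ofReal h0]
  have hXi : ∀ i ∈ N, MemLp (fun u : α → ℝ => (Iic s).indicator (1 : ℝ → ℝ) (u i)) 2 (cube α) :=
    fun i _ => hX.comp_measurePreserving (hμ i)
  have heq : cnt N s = ∑ i ∈ N, fun u : α → ℝ => (Iic s).indicator (1 : ℝ → ℝ) (u i) := by
    funext u
    rw [cnt, Finset.sum_apply]
  have hmean : ∫ u, cnt N s u ∂cube α = N.card * s := by
    unfold cnt
    rw [integral_finsetSum _ fun i hi => (hXi i hi).integrable one_le_two]
    refine (Finset.sum_congr rfl fun i _ => ?_).trans (by simp : ∑ _i ∈ N, s = N.card * s)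
    rw [← integral_map (hμ i).measurable.aemeasurable
      ((measurable_one.indicator measurableSet_Iic).aestronglyMeasurable), (hμ i).map_eq,
      integral_indicator_one measurableSet_Iic, hs]
  have hL : MemLp (cnt N s) 2 (cube α) := by rw [heq]; exact memLp_finsetSum' _ hXi
  have hvar : variance (cnt N s) (cube α) ≤ N.card * s := by
    rw [heq, IndepFun.variance_sum hXi fun i _ j _ hij =>
      (iIndepFun_pi (μ := fun _ : α => unif) (X := fun _ => (Iic s).indicator (1 : ℝ → ℝ))
        fun _ => (measurable_one.indicator measurableSet_Iic).aemeasurable).indepFun hij]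
    refine (Finset.sum_le_sum fun i hi => ?_).trans (le_of_eq (by simp : ∑ _i ∈ N, s = N.card * s))
    refine (variance_le_expectation_sq (hXi i hi).1).trans (le_of_eq ?_)
    have : (fun u : α → ℝ => (Iic s).indicator (1 : ℝ → ℝ) (u i)) ^ 2 =
        fun u => (Iic s).indicator (1 : ℝ → ℝ) (u i) := by
      funext u
      simp only [Pi.pow_apply, Set.indicator_apply, Pi.one_apply]
      split_ifs <;> simp
    rw [this, ← integral_map (hμ i).measurable.aemeasurable
      ((measurable_one.indicator measurableSet_Iic).aestronglyMeasurable), (hμ i).map_eq,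
      integral_indicator_one measurableSet_Iic, hs]
  refine le_trans (le_of_eq ?_) ((meas_ge_le_variance_div_sq hL ha).trans
    (ENNReal.ofReal_le_ofReal (div_le_div_of_nonneg_right hvar (sq_nonneg a))))
  rw [hmean]

/-- All coordinates of `N` avoid an initial segment. -/
lemma cube_above (N : Finset α) {s : ℝ} (h1 : s ≤ 1) :
    cube α {u | ∀ i ∈ N, ¬ u i ≤ s} = ENNReal.ofReal ((1 - s) ^ N.card) ∨ s < 0 := by
  classical
  rcases lt_or_ge s 0 with h | h
  · exact Or.inr h
  refine Or.inl ?_
  have hset : {u : α → ℝ | ∀ i ∈ N, ¬ u i ≤ s} =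
      univ.pi fun i => if i ∈ N then (Iic s)ᶜ else univ := by
    ext u
    simp only [mem_ofPred_eq, mem_univ_pi]
    exact forall_congr' fun i => by by_cases hi : i ∈ N <;> simp [hi]
  rw [hset, cube, Measure.pi_pi]
  simp only [apply_ite unif, measure_univ, Finset.prod_ite_mem, Finset.univ_inter, Finset.prod_const]
  rw [prob_compl_eq_one_sub measurableSet_Iic, unif_Iic h1, ← ENNReal.ofReal_one,
    ← ENNReal.ofReal_sub _ h, ← ENNReal.ofReal_pow (by linarith)]

end Vale.Agent.P331
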