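import Mathlib

/-!
Ranks, greedy bases of a ranking, and a chain protecting against a random set.
-/

open Set

namespace Vale.Agent.P331

variable {α : Type*} [Fintype α] {M : Matroid α}

/-- The rank as a natural number. -/
noncomputable def rk (M : Matroid α) (X : Set α) : ℕ := (M.eRk X).toNat

lemma coe_rk (X : Set α) : (rk M X : ℕ∞) = M.eRk X :=
  ENat.natCast_toNat (ne_top_of_le_ne_top (by simp [X.toFinite]) (M.eRk_le_encard X))

lemma rk_mono {X Y : Set α} (h : X ⊆ Y) : rk M X ≤ rk M Y := by
  have := M.eRk_mono h
  rw [← coe_rk, ← coe_rk] at this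
  exact_mod_cast this

lemma rk_le_card (X : Set α) : rk M X ≤ X.ncard := by
  have := M.eRk_le_encard X
  rw [← coe_rk, ← X.toFinite.cast_ncard_eq] at this
  exact_mod_cast this

lemma indep_card_le_rk {I : Set α} (hI : M.Indep I) {X : Set α} (h : I ⊆ X) :
    I.ncard ≤ rk M X := by
  have := hI.encard_le_eRk_of_subset h
  rw [← coe_rk, ← I.toFinite.cast_ncard_eq] at this
  exact_mod_cast this

omit [Fintype α] in
lemma rk_insert_of_mem {e : α} {X : Set α} (h : e ∈ M.closure X) :
    rk M (insert e X) = rk M X := by
  rw [rk, rk, ← M.eRk_closure_eq (insert e X), Matroid.closure_insert_eq_of_mem_closure h,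
    M.eRk_closure_eq]

lemma rk_insert_of_notMem (hE : M.E = univ) {e : α} {X : Set α} (h : e ∉ M.closure X) :
    rk M (insert e X) = rk M X + 1 := by
  obtain ⟨I, hI⟩ := M.exists_isBasis X (by simp [hE])
  have he : e ∉ M.closure I := by rwa [hI.closure_eq_closure]
  have hB := hI.insert_isBasis_insert_of_notMem_closure he (by simp [hE])
  have heI : e ∉ I := fun h' => he (M.mem_closure_of_mem h' (by simp [hE]))
  have h1 : (rk M (insert e X) : ℕ∞) = rk M X + 1 := by
    rw [coe_rk, coe_rk, ← hB.encard_eq_eRk, ← hI.encard_eq_eRk, Set.encard_insert_of_notMem heI]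
  exact_mod_cast h1

/-- The elements not spanned by the better ones, a smaller key being better. -/
def greedy (M : Matroid α) (u : α → ℝ) : Set α := {e | e ∉ M.closure {f | u f < u e}}

omit [Fintype α] in
lemma greedy_isBasis (hE : M.E = univ) {u : α → ℝ} (hu : u.Injective) (L : Finset α)
    (hL : ∀ e ∈ L, ∀ f, u f < u e → f ∈ L) :
    M.IsBasis (greedy M u ∩ L) L := by
  classical
  induction hn : L.card using Nat.strong_induction_on generalizing L with
  | _ m ih =>
    subst hn
    rcases L.eq_empty_or_nonempty with rfl | hne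
    · simp
    obtain ⟨e, he, hmax⟩ := L.exists_max_image u hne
    have hset : ((L.erase e : Finset α) : Set α) = {f | u f < u e} := by
      ext f
      simp only [Finset.coe_erase, mem_sdiff, Finset.mem_coe, mem_singleton_iff, mem_ofPred_eq]
      refine ⟨fun h => lt_of_le_of_ne (hmax f h.1) fun h' => h.2 (hu h'), fun h => ⟨hL e he f h, ?_⟩⟩
      rintro rfl
      exact lt_irrefl _ h
    have hB := ih _ (Finset.card_erase_lt_of_mem he) (L.erase e) (fun a ha f hf => by
      have ha' := Finset.mem_of_mem_erase ha
      refine Finset.mem_erase.2 ⟨?_, hL a ha' f hf⟩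
      rintro rfl
      exact absurd (hmax a ha') (not_le.2 hf)) rfl
    have hL' : (L : Set α) = insert e ((L.erase e : Finset α) : Set α) := by
      rw [← Finset.coe_insert, Finset.insert_erase he]
    by_cases hg : e ∈ greedy M u
    · have hcl : e ∉ M.closure (greedy M u ∩ (L.erase e : Finset α)) := by
        rw [hB.closure_eq_closure, hset]
        exact hg
      rw [hL', Set.inter_insert_of_mem hg]
      exact hB.insert_isBasis_insert_of_notMem_closure hcl (by simp [hE])
    · rw [hL', Set.inter_insert_of_notMem hg, Matroid.isBasis_iff_indep_subset_closure]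
      refine ⟨hB.indep, inter_subset_right.trans (subset_insert _ _), Set.insert_subset ?_ hB.subset_closure⟩
      rw [hB.closure_eq_closure, hset]
      simpa [greedy] using hg

lemma greedy_indep (hE : M.E = univ) {u : α → ℝ} (hu : u.Injective) : M.Indep (greedy M u) := by
  simpa using (greedy_isBasis hE hu Finset.univ (fun _ _ _ _ => Finset.mem_univ _)).indep

open Classical in
lemma sum_sub_le_greedy (hE : M.E = univ) {u : α → ℝ} (hu : u.Injective) {v : α → ℝ}
    (hv : ∀ e f, u f < u e → v e ≤ v f) {I : Set α} (hI : M.Indep I) (L : Finset α)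
    (hL : ∀ e ∈ L, ∀ f, u f < u e → f ∈ L) (c : ℝ) (hc : ∀ e ∈ L, c ≤ v e) :
    (∑ e ∈ L, if e ∈ I then v e - c else 0) ≤
      ∑ e ∈ L, if e ∈ greedy M u then v e - c else 0 := by
  induction hn : L.card using Nat.strong_induction_on generalizing L c with
  | _ m ih =>
    subst hn
    rcases L.eq_empty_or_nonempty with rfl | hne
    · simp
    obtain ⟨e, he, hmax⟩ := L.exists_max_image u hne
    have hlow : ∀ a ∈ L.erase e, v e ≤ v a := fun a ha =>
      hv e a (lt_of_le_of_ne (hmax a (Finset.mem_of_mem_erase ha))
        fun h => Finset.ne_of_mem_erase ha (hu h))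
    have hih := ih _ (Finset.card_erase_lt_of_mem he) (L.erase e) (fun a ha f hf => by
      have ha' := Finset.mem_of_mem_erase ha
      refine Finset.mem_erase.2 ⟨?_, hL a ha' f hf⟩
      rintro rfl
      exact absurd (hmax a ha') (not_le.2 hf)) (v e) hlow rfl
    have hsplit : ∀ P : Set α, (∑ a ∈ L, if a ∈ P then v a - c else 0) =
        (∑ a ∈ L.erase e, if a ∈ P then v a - v e else 0) +
          ((P ∩ L).ncard : ℝ) * (v e - c) := by
      intro P
      have h1 : ((P ∩ L).ncard : ℝ) = ∑ a ∈ L, if a ∈ P then (1 : ℝ) else 0 := by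
        rw [show (P ∩ L : Set α) = ((L.filter (· ∈ P) : Finset α) : Set α) by ext; simp [and_comm],
          Set.ncard_coe_finset, Finset.sum_boole]
      rw [h1, Finset.sum_mul, Finset.sum_erase, ← Finset.sum_add_distrib]
      · refine Finset.sum_congr rfl fun a _ => ?_
        split_ifs <;> ring
      · simp
    have hcard : (I ∩ L).ncard ≤ (greedy M u ∩ L).ncard := by
      have hB := greedy_isBasis hE hu L hL
      have h1 := indep_card_le_rk (hI.inter_right (L : Set α)) inter_subset_right
      have h2 : (rk M L : ℕ∞) = ((greedy M u ∩ L).ncard : ℕ) := by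
        rw [coe_rk, ← hB.encard_eq_eRk, (greedy M u ∩ L).toFinite.cast_ncard_eq]
      exact h1.trans (by exact_mod_cast h2.le)
    rw [hsplit, hsplit]
    gcongr
    linarith [hc e he]

open Classical in
/-- The greedy basis has the largest value. -/
lemma sum_le_greedy (hE : M.E = univ) {u : α → ℝ} (hu : u.Injective) {v : α → ℝ}
    (hv : ∀ e f, u f < u e → v e ≤ v f) (hv0 : ∀ e, 0 ≤ v e) {I : Finset α}
    (hI : M.Indep (I : Set α)) :
    ∑ e ∈ I, v e ≤ ∑ e, if e ∈ greedy M u then v e else 0 := by
  have h := sum_sub_le_greedy hE hu hv hI Finset.univ (fun _ _ _ _ => Finset.mem_univ _) 0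
    (fun e _ => hv0 e)
  simpa [Finset.sum_ite_mem] using h

section Chain

variable {Ω : Type*} [Fintype Ω]

open Classical in
/-- A level function for which every element is rarely spanned by the random set. -/
lemma exists_levels (hE : M.E = univ) (w : Ω → ℝ) (hw : ∀ ω, 0 ≤ w ω) (hw1 : ∑ ω, w ω = 1)
    (R : Ω → Set α) (hR : ∀ N : Set α, ∑ ω, w ω * rk M (R ω ∩ N) ≤ (rk M N : ℝ) / 4) :
    ∃ lev : α → ℕ, ∀ e, M.IsNonloop e →
      ∑ ω, (if e ∈ M.closure (((R ω ∩ {f | lev e ≤ lev f}) \ {e}) ∪ {f | lev e < lev f})
        then w ω else 0) ≤ 1 / 2 := by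
  suffices H : ∀ N : Finset α, ∃ lev : α → ℕ, ∀ e ∈ N, M.IsNonloop e →
      ∑ ω, (if e ∈ M.closure (((R ω ∩ {f | f ∈ N ∧ lev e ≤ lev f}) \ {e}) ∪
        {f | f ∈ N ∧ lev e < lev f}) then w ω else 0) ≤ 1 / 2 by
    obtain ⟨lev, h⟩ := H Finset.univ
    exact ⟨lev, fun e he => by simpa using h e (Finset.mem_univ _) he⟩
  intro N
  induction hn : N.card using Nat.strong_induction_on generalizing N with
  | _ m ih =>
    subst hn
    let good : Finset α → Prop := fun S =>
      ∑ ω, w ω * (rk M ((R ω ∩ N) ∪ S) : ℝ) ≤ (rk M N : ℝ) / 4 + (rk M S : ℝ) / 2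
    have hne : (N.powerset.filter good).Nonempty := by
      refine ⟨∅, Finset.mem_filter.2 ⟨by simp, ?_⟩⟩
      have h0 : (0 : ℝ) ≤ (rk M ((∅ : Finset α) : Set α) : ℝ) / 2 := by positivity
      have := hR N
      simp only [good, Finset.coe_empty, Set.union_empty] at h0 ⊢
      linarith
    obtain ⟨S, hS, hmax⟩ := (N.powerset.filter good).exists_maximal hne
    obtain ⟨hSN, hgood⟩ := Finset.mem_filter.1 hS
    rw [Finset.mem_powerset] at hSN
    have hgap : ∀ e ∈ N, e ∉ S → M.IsNonloop e →
        ∑ ω, (if e ∈ M.closure (((R ω ∩ N) \ {e}) ∪ S) then w ω else 0) ≤ 1 / 2 := by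
      intro e heN heS _
      by_contra hlt
      rw [not_le] at hlt
      have hins : good (insert e S) := by
        have hi : ∀ X : Set α, (rk M (insert e X) : ℝ) =
            rk M X + if e ∈ M.closure X then 0 else 1 := fun X => by
          split_ifs with h
          · simp [rk_insert_of_mem h]
          · simp [rk_insert_of_notMem hE h]
        simp only [good, Finset.coe_insert, Set.union_insert, hi] at hgood ⊢
        simp only [mul_add, Finset.sum_add_distrib]
        split_ifs with h
        · have hz : ∑ ω, w ω * (if e ∈ M.closure (R ω ∩ N ∪ S) then (0 : ℝ) else 1) = 0 :=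
            Finset.sum_eq_zero fun ω _ => by
              rw [if_pos (M.closure_subset_closure Set.subset_union_right h), mul_zero]
          rw [hz]
          linarith
        · have hz : ∑ ω, w ω * (if e ∈ M.closure (R ω ∩ N ∪ S) then (0 : ℝ) else 1) ≤ 1 / 2 := by
            calc _ ≤ ∑ ω, (w ω - if e ∈ M.closure (((R ω ∩ N) \ {e}) ∪ S) then w ω else 0) := by
                  refine Finset.sum_le_sum fun ω _ => ?_
                  by_cases h' : e ∈ M.closure (((R ω ∩ N) \ {e}) ∪ S)
                  · rw [if_pos h', if_pos (M.closure_subset_closure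
                      (Set.union_subset_union_left _ Set.sdiff_subset) h')]
                    simp
                  · rw [if_neg h']
                    split_ifs <;> simp [hw ω]
              _ ≤ _ := by rw [Finset.sum_sub_distrib, hw1]; linarith
          linarith
      have hle := hmax (Finset.mem_filter.2 ⟨Finset.mem_powerset.2
        (Finset.insert_subset heN hSN), hins⟩) (Finset.subset_insert _ _)
      exact heS (hle (Finset.mem_insert_self _ _))
    by_cases hlt : S.card < N.card
    · obtain ⟨lev', h'⟩ := ih _ hlt S rfl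
      refine ⟨fun f => if f ∈ S then lev' f + 1 else 0, fun e heN he => ?_⟩
      by_cases heS : e ∈ S
      · refine le_trans (Finset.sum_le_sum fun ω _ => ?_) (h' e heS he)
        split_ifs with h1 h2
        · exact le_rfl
        · refine absurd (M.closure_subset_closure ?_ h1) h2
          rintro f (⟨⟨hf, -, hlev⟩, hne'⟩ | ⟨-, hlev⟩)
          · simp only [if_pos heS] at hlev
            split_ifs at hlev with hfS
            · exact Or.inl ⟨⟨hf, hfS, by omega⟩, hne'⟩
            · omega
          · simp only [if_pos heS] at hlev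
            split_ifs at hlev with hfS
            · exact Or.inr ⟨hfS, by omega⟩
            · omega
        · exact hw ω
        · exact le_rfl
      · refine le_trans (Finset.sum_le_sum fun ω _ => ?_) (hgap e heN heS he)
        split_ifs with h1 h2
        · exact le_rfl
        · refine absurd (M.closure_subset_closure ?_ h1) h2
          rintro f (⟨⟨hf, hfN, -⟩, hne'⟩ | ⟨-, hlev⟩)
          · exact Or.inl ⟨⟨hf, hfN⟩, hne'⟩
          · simp only [if_neg heS] at hlev
            split_ifs at hlev with hfS
            · exact Or.inr hfS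
            · omega
        · exact hw ω
        · exact le_rfl
    · have hSN' : S = N := Finset.eq_of_subset_of_card_le hSN (not_lt.1 hlt)
      subst hSN'
      refine ⟨fun _ => 0, fun e heN he => absurd hgood (not_le.2 ?_)⟩
      have hpos : (1 : ℝ) ≤ rk M S := by
        have h1 := indep_card_le_rk (M := M) (Matroid.indep_singleton.2 he)
          (Set.singleton_subset_iff.2 (Finset.mem_coe.2 heN))
        rw [Set.ncard_singleton] at h1
        exact_mod_cast h1
      calc (rk M S : ℝ) / 4 + (rk M S : ℝ) / 2 < rk M S := by linarith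
        _ = ∑ ω, w ω * (rk M S : ℝ) := by rw [← Finset.sum_mul, hw1, one_mul]
        _ ≤ _ := by
            refine Finset.sum_le_sum fun ω _ => mul_le_mul_of_nonneg_left ?_ (hw ω)
            exact_mod_cast rk_mono (Set.subset_union_right)

end Chain

end Vale.Agent.P331
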