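import Vale.Agent.P331.Prob
import Vale.Agent.P331.Model

/-!
The two rules and what they are sure to collect.
-/

open MeasureTheory Set
open scoped NNReal ENNReal

namespace Vale.Agent.P331

variable {α : Type*} [Fintype α]

/-- The elements that are not loops. -/
noncomputable def live (M : Matroid α) : Finset α :=
  open scoped Classical in Finset.univ.filter fun e => M.IsNonloop e

/-- The scaled marginal. -/
noncomputable def level (M : Matroid α) (e : α) : ℕ := ⌊marg M e * (live M).card / 8⌋₊

/-- The number of samples allowed to beat an accepted value. -/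
noncomputable def cut (M : Matroid α) (e : α) : ℕ := 2 ^ Nat.log 2 (level M e)

/-- The number of samples beating a draw. -/
noncomputable def beatCount (M : Matroid α) (S : α → Draw) (z : Draw) : ℕ :=
  open scoped Classical in ((live M).filter fun i => Beats (S i) z).card

/-- Elements that the chain rule may take. -/
def Active (M : Matroid α) (S : α → Draw) (e : α) (z : Draw) : Prop :=
  M.IsNonloop e ∧ 64 ≤ level M e ∧ beatCount M S z < cut M e

/-- The set guarded by the chain at an element. -/
def guardSet (lev : α → ℕ) (A : Set α) (e : α) : Set α :=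
  (A ∩ {f | lev e ≤ lev f}) ∪ {f | lev e < lev f}

/-- The chain rule and the single element rule. -/
def Accept (M : Matroid α) (lev : α → ℕ) (S : α → Draw) (coin : Bool) (A : Finset α) (e : α)
    (z : Draw) : Prop :=
  if coin then Active M S e z ∧ e ∉ M.closure (guardSet lev A e)
  else M.IsNonloop e ∧ beatCount M S z = 0 ∧ A = ∅

/-- An element is protected against the random set. -/
def Free (M : Matroid α) (lev : α → ℕ) (R : Set α) (e : α) : Prop :=
  e ∉ M.closure (((R ∩ {f | lev e ≤ lev f}) \ {e}) ∪ {f | lev e < lev f})

open Classical in
/-- One arrival. -/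
noncomputable def step (M : Matroid α) (lev : α → ℕ) (S V : α → Draw) (coin : Bool)
    (A : Finset α) (e : α) : Finset α :=
  if Accept M lev S coin A e (V e) then insert e A else A

variable {M : Matroid α} {lev : α → ℕ} {S V : α → Draw} {coin : Bool}

lemma subset_foldl (l : List α) (A : Finset α) : A ⊆ l.foldl (step M lev S V coin) A := by
  classical
  induction l generalizing A with
  | nil => exact subset_rfl
  | cons a l ih =>
    refine subset_trans ?_ (ih _)
    unfold step
    split
    · exact Finset.subset_insert _ _
    · exact subset_rfl

lemma foldl_invariant {P : Finset α → Prop} (h0 : P ∅)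
    (hs : ∀ A e, P A → P (step M lev S V coin A e)) (l : List α) :
    P (l.foldl (step M lev S V coin) ∅) := by
  suffices ∀ A, P A → P (l.foldl (step M lev S V coin) A) from this ∅ h0
  induction l with
  | nil => exact fun A h => h
  | cons a l ih => exact fun A h => ih _ (hs A a h)

/-- What the chain keeps. -/
def Guarded (M : Matroid α) (lev : α → ℕ) (A : Finset α) : Prop :=
  ∀ e ∈ A, e ∉ M.closure (guardSet lev ((A : Set α) \ {e}) e)

omit [Fintype α] in
lemma guarded_insert [DecidableEq α] {A : Finset α} {f : α} (hA : Guarded M lev A)
    (hf : f ∉ M.closure (guardSet lev A f)) : Guarded M lev (insert f A) := by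
  intro e he
  rcases eq_or_ne e f with rfl | hne
  · refine fun h => hf (M.closure_subset_closure ?_ h)
    refine union_subset_union_left _ (inter_subset_inter_left _ ?_)
    intro g hg
    rcases Finset.mem_insert.1 hg.1 with rfl | hg'
    · exact absurd rfl hg.2
    · exact hg'
  have heA : e ∈ A := (Finset.mem_insert.1 he).resolve_left hne
  have hold := hA e heA
  intro h
  have hsub : guardSet lev (((insert f A : Finset α) : Set α) \ {e}) e ⊆
      insert f (guardSet lev ((A : Set α) \ {e}) e) := by
    rintro g (⟨⟨hg, hge⟩, hl⟩ | hl)
    · rcases Finset.mem_insert.1 hg with rfl | hg'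
      · exact mem_insert _ _
      · exact mem_insert_of_mem _ (Or.inl ⟨⟨hg', hge⟩, hl⟩)
    · exact mem_insert_of_mem _ (Or.inr hl)
  rcases lt_trichotomy (lev e) (lev f) with hlt | heq | hgt
  · refine hold (M.closure_subset_closure ?_ h)
    exact hsub.trans (insert_subset (Or.inr hlt) subset_rfl)
  · have hx := Matroid.closure_exchange ⟨M.closure_subset_closure hsub h, hold⟩
    refine hf (M.closure_subset_closure ?_ hx.1)
    refine insert_subset (Or.inl ⟨Finset.mem_coe.2 heA, heq.ge⟩) ?_
    rintro g (⟨⟨hg, -⟩, hl⟩ | hl)
    · exact Or.inl ⟨hg, heq ▸ hl⟩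
    · exact Or.inr (show lev f < lev g from heq ▸ hl)
  · refine hold (M.closure_subset_closure ?_ h)
    rintro g (⟨⟨hg, hge⟩, hl⟩ | hl)
    · rcases Finset.mem_insert.1 hg with rfl | hg'
      · exact absurd hl (not_le.2 hgt)
      · exact Or.inl ⟨⟨hg', hge⟩, hl⟩
    · exact Or.inr hl

lemma guarded_indep (hE : M.E = univ) {A : Finset α} (hA : Guarded M lev A) :
    M.Indep (A : Set α) := by
  by_contra h
  obtain ⟨C, hCA, hC⟩ :=
    ((Matroid.not_indep_iff (by simp [hE])).1 h).exists_isCircuit_subset
  obtain ⟨e, he, hmin⟩ := Set.exists_min_image C lev C.toFinite hC.nonempty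
  refine hA e (hCA he) (M.closure_subset_closure ?_ (hC.mem_closure_sdiff_singleton_of_mem he))
  exact fun g hg => Or.inl ⟨⟨hCA hg.1, hg.2⟩, hmin g hg.1⟩

/-- Both rules keep the accepted set independent. -/
lemma foldl_indep (hE : M.E = univ) (l : List α) :
    M.Indep ((l.foldl (step M lev S V coin) ∅ : Finset α) : Set α) := by
  classical
  cases coin
  · have h : (fun A : Finset α => A = ∅ ∨ ∃ e, M.IsNonloop e ∧ A = {e})
        (l.foldl (step M lev S V false) ∅) := by
      refine foldl_invariant (P := fun A : Finset α => A = ∅ ∨ ∃ e, M.IsNonloop e ∧ A = {e})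
        (Or.inl rfl) (fun A e hA => ?_) l
      unfold step
      split
      next h =>
        simp only [Accept, Bool.false_eq_true, if_false] at h
        exact Or.inr ⟨e, h.1, by simp [h.2.2]⟩
      next h => exact hA
    rcases h with h | ⟨e, he, h⟩
    · simp [h]
    · simpa [h] using he
  · refine guarded_indep hE (foldl_invariant (P := Guarded M lev) (fun e he => absurd he (by simp))
      (fun A e hA => ?_) l)
    unfold step
    split
    next h =>
      simp only [Accept, if_true] at h
      exact guarded_insert hA h.2
    next h => exact hA

/-- A free active element is taken by the chain rule in every order. -/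
lemma chain_takes {R : Set α} (hR : ∀ f, Active M S f (V f) → f ∈ R) {e : α}
    (he : Active M S e (V e)) (hfree : Free M lev R e) (l : List α) (hl : e ∈ l) :
    e ∈ l.foldl (step M lev S V true) ∅ := by
  classical
  suffices ∀ (l : List α) (A : Finset α), (∀ f ∈ A, Active M S f (V f)) → e ∈ l →
      e ∈ l.foldl (step M lev S V true) A from this l ∅ (by simp) hl
  intro l
  induction l with
  | nil => simp
  | cons a l ih =>
    intro A hA hl
    rw [List.foldl_cons]
    rcases eq_or_ne e a with rfl | hne
    · refine subset_foldl l _ ?_
      unfold step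
      split
      next h => exact Finset.mem_insert_self _ _
      next h =>
        by_contra heA
        refine h ?_
        simp only [Accept, if_true]
        refine ⟨he, fun hcl => hfree (M.closure_subset_closure ?_ hcl)⟩
        rintro g (⟨hg, hl'⟩ | hl')
        · exact Or.inl ⟨⟨hR g (hA g hg), hl'⟩, fun hge => heA (hge ▸ hg)⟩
        · exact Or.inr hl'
    · refine ih _ (fun f hf => ?_) ((List.mem_cons.1 hl).resolve_left hne)
      unfold step at hf
      split at hf
      next h =>
        simp only [Accept, if_true] at h
        rcases Finset.mem_insert.1 hf with rfl | hf'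
        · exact h.1
        · exact hA f hf'
      next h => exact hA f hf

/-- The only nonloop beating all samples is taken by the single element rule in every order. -/
lemma single_takes {e : α} (he : M.IsNonloop e) (h0 : beatCount M S (V e) = 0)
    (hothers : ∀ f, f ≠ e → M.IsNonloop f → beatCount M S (V f) ≠ 0) (l : List α) (hl : e ∈ l) :
    e ∈ l.foldl (step M lev S V false) ∅ := by
  classical
  suffices ∀ (l : List α) (A : Finset α), (∀ f ∈ A, f = e) → e ∈ l →
      e ∈ l.foldl (step M lev S V false) A from this l ∅ (by simp) hl
  intro l
  induction l with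
  | nil => simp
  | cons a l ih =>
    intro A hA hl
    rw [List.foldl_cons]
    rcases eq_or_ne e a with rfl | hne
    · refine subset_foldl l _ ?_
      unfold step
      split
      next h => exact Finset.mem_insert_self _ _
      next h =>
        rcases A.eq_empty_or_nonempty with rfl | ⟨f, hf⟩
        · exact absurd (by simp [Accept, he, h0]) h
        · exact hA f hf ▸ hf
    · refine ih _ (fun f hf => ?_) ((List.mem_cons.1 hl).resolve_left hne)
      unfold step at hf
      split at hf
      next h =>
        simp only [Accept, Bool.false_eq_true, if_false] at h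
        exact absurd h.2.1 (hothers a hne.symm h.1)
      next h => exact hA f hf

end Vale.Agent.P331
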